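import Mathlib
import Vale.Agent.P209.Defs

set_option linter.all false

namespace Vale.Agent.P209.V

open Vale.Agent.P209

/-! N1. The volume condition is necessary. -/

/-- the symplectic form as a bilinear form -/
noncomputable def n1_B (n : ℕ) : LinearMap.BilinForm ℝ (Fin n → ℂ) :=
  LinearMap.mk₂ ℝ (fun v w : Fin n → ℂ => omega v w)
    (by
      intro v v' w
      simp only [omega, Pi.add_apply, Complex.add_re, Complex.add_im, ← Finset.sum_add_distrib]
      exact Finset.sum_congr rfl fun j _ => by ring)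
    (by
      intro c v w
      simp only [omega, Pi.smul_apply, Complex.smul_re, Complex.smul_im, smul_eq_mul,
        Finset.mul_sum]
      exact Finset.sum_congr rfl fun j _ => by ring)
    (by
      intro v w w'
      simp only [omega, Pi.add_apply, Complex.add_re, Complex.add_im, ← Finset.sum_add_distrib]
      exact Finset.sum_congr rfl fun j _ => by ring)
    (by
      intro c v w
      simp only [omega, Pi.smul_apply, Complex.smul_re, Complex.smul_im, smul_eq_mul,
        Finset.mul_sum]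
      exact Finset.sum_congr rfl fun j _ => by ring)

theorem n1_B_apply {n : ℕ} (v w : Fin n → ℂ) : n1_B n v w = omega v w := rfl

theorem n1_zero {n : ℕ} (v : Fin n → ℂ) (h : omega v (fun j => Complex.I * v j) = 0) : v = 0 := by
  have h1 : ∑ j, ((v j).re * (v j).re + (v j).im * (v j).im) = 0 := by
    rw [← h]
    refine Finset.sum_congr rfl fun j _ => ?_
    simp only [Complex.mul_re, Complex.mul_im, Complex.I_re, Complex.I_im]
    ring
  have h2 := (Finset.sum_eq_zero_iff_of_nonneg (fun j _ =>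
    add_nonneg (mul_self_nonneg (v j).re) (mul_self_nonneg (v j).im))).1 h1
  funext j
  have h3 := h2 j (Finset.mem_univ j)
  have h4 : (v j).re = 0 := by nlinarith [mul_self_nonneg (v j).re, mul_self_nonneg (v j).im]
  have h5 : (v j).im = 0 := by nlinarith [mul_self_nonneg (v j).re, mul_self_nonneg (v j).im]
  exact Complex.ext h4 h5

theorem n1_anti {n : ℕ} (v w : Fin n → ℂ) : omega v w = - omega w v := by
  simp only [omega, ← Finset.sum_neg_distrib]
  exact Finset.sum_congr rfl fun j _ => by ring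

theorem n1_nondeg (n : ℕ) : (n1_B n).Nondegenerate := by
  constructor
  · intro v hv
    exact n1_zero v (hv _)
  · intro v hv
    refine n1_zero v ?_
    rw [n1_anti]
    have := hv (fun j => Complex.I * v j)
    rw [n1_B_apply] at this
    rw [this, neg_zero]

/-- A real linear map preserving the symplectic form has determinant `±1`. -/
theorem abs_det_of_omega {n : ℕ} (A : (Fin n → ℂ) →L[ℝ] (Fin n → ℂ))
    (h : ∀ v w : Fin n → ℂ, omega (A v) (A w) = omega v w) : |A.det| = 1 := by
  classical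
  let b := Module.finBasis ℝ (Fin n → ℂ)
  have h1 : (n1_B n).comp (A : (Fin n → ℂ) →ₗ[ℝ] (Fin n → ℂ)) (A : (Fin n → ℂ) →ₗ[ℝ] (Fin n → ℂ))
      = n1_B n := by
    refine LinearMap.ext fun v => LinearMap.ext fun w => ?_
    exact h v w
  have h2 := LinearMap.BilinForm.toMatrix_comp b b (n1_B n)
    (A : (Fin n → ℂ) →ₗ[ℝ] (Fin n → ℂ)) (A : (Fin n → ℂ) →ₗ[ℝ] (Fin n → ℂ))
  rw [h1] at h2
  have h3 := congrArg Matrix.det h2
  rw [Matrix.det_mul, Matrix.det_mul, Matrix.det_transpose, LinearMap.det_toMatrix] at h3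
  have h4 : (LinearMap.BilinForm.toMatrix b (n1_B n)).det ≠ 0 :=
    (LinearMap.BilinForm.nondegenerate_iff_det_ne_zero b).1 (n1_nondeg n)
  have h5 : A.det = LinearMap.det (A : (Fin n → ℂ) →ₗ[ℝ] (Fin n → ℂ)) := rfl
  rw [← h5] at h3
  have h6 : A.det * A.det = 1 := by
    have h7 : (A.det * A.det - 1) * (LinearMap.BilinForm.toMatrix b (n1_B n)).det = 0 := by
      linear_combination -h3
    rcases mul_eq_zero.1 h7 with h8 | h8
    · linarith
    · exact absurd h8 h4
  have h7 : |A.det| * |A.det| = 1 := by rw [← abs_mul, h6, abs_one]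
  nlinarith [abs_nonneg A.det]

theorem n1_continuous (n : ℕ) : Continuous fun z : Fin n → ℂ => Real.pi * ∑ j, ‖z j‖ ^ 2 := by
  fun_prop

theorem n1_isCompact (n : ℕ) (r : ℝ) : IsCompact (closedBall n r) := by
  refine Metric.isCompact_of_isClosed_isBounded ?_ ?_
  · exact isClosed_le (n1_continuous n) continuous_const
  · refine (Metric.isBounded_closedBall (x := (0 : Fin n → ℂ))
      (r := Real.sqrt (r / Real.pi))).subset ?_
    intro z hz
    rw [mem_closedBall_zero_iff, pi_norm_le_iff_of_nonneg (Real.sqrt_nonneg _)]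
    intro j
    have h1 : Real.pi * ∑ j, ‖z j‖ ^ 2 ≤ r := hz
    have h2 : ‖z j‖ ^ 2 ≤ ∑ j, ‖z j‖ ^ 2 :=
      Finset.single_le_sum (fun i _ => sq_nonneg ‖z i‖) (Finset.mem_univ j)
    apply Real.le_sqrt_of_sq_le
    rw [le_div_iff₀ Real.pi_pos]
    nlinarith [Real.pi_pos]

open scoped Pointwise in
theorem n1_smul (n : ℕ) (r : ℝ) (hr : 0 < r) :
    closedBall n r = Real.sqrt r • closedBall n 1 := by
  have hs : 0 < Real.sqrt r := Real.sqrt_pos.2 hr
  ext z
  rw [Set.mem_smul_set_iff_inv_smul_mem₀ hs.ne']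
  simp only [closedBall, Set.mem_setOf_eq, Pi.smul_apply, norm_smul, mul_pow, ← Finset.mul_sum]
  have h1 : ‖(Real.sqrt r)⁻¹‖ ^ 2 = r⁻¹ := by
    rw [Real.norm_eq_abs, sq_abs, inv_pow, Real.sq_sqrt hr.le]
  rw [h1]
  have h2 : Real.pi * (r⁻¹ * ∑ j, ‖z j‖ ^ 2) = (Real.pi * ∑ j, ‖z j‖ ^ 2) / r := by
    field_simp
  rw [h2, div_le_one hr]

theorem volume_closedBall (n : ℕ) : ∃ C : ENNReal, C ≠ 0 ∧ C ≠ ⊤ ∧
    ∀ r : ℝ, 0 < r → MeasureTheory.volume (closedBall n r) = ENNReal.ofReal (r ^ n) * C := by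
  refine ⟨MeasureTheory.volume (closedBall n 1), ?_, (n1_isCompact n 1).measure_ne_top, ?_⟩
  · have ho : IsOpen {z : Fin n → ℂ | Real.pi * ∑ j, ‖z j‖ ^ 2 < 1} :=
      isOpen_lt (n1_continuous n) continuous_const
    have hne : {z : Fin n → ℂ | Real.pi * ∑ j, ‖z j‖ ^ 2 < 1}.Nonempty :=
      ⟨0, by simp⟩
    have h1 := ho.measure_pos MeasureTheory.volume hne
    refine (h1.trans_le (MeasureTheory.measure_mono ?_)).ne'
    intro z hz
    have h2 : Real.pi * ∑ j, ‖z j‖ ^ 2 < 1 := hz
    exact h2.le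
  · intro r hr
    rw [n1_smul n r hr, MeasureTheory.Measure.addHaar_smul]
    congr 2
    have h1 : Module.finrank ℝ (Fin n → ℂ) = 2 * n := by
      rw [Module.finrank_pi_fintype]
      simp [Complex.finrank_real_complex, mul_comm]
    rw [h1, pow_mul, Real.sq_sqrt hr.le, abs_of_nonneg (by positivity)]

theorem n1_image {n : ℕ} {r : ℝ} {f : (Fin n → ℂ) → (Fin n → ℂ)}
    (h : IsSymplecticEmbedding r f) :
    MeasureTheory.volume (f '' closedBall n r) = MeasureTheory.volume (closedBall n r) := by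
  obtain ⟨U, hU, hsub, hsm, hemb, hom⟩ := h
  have hinj : Set.InjOn f (closedBall n r) := by
    intro z hz w hw hzw
    have h1 : (⟨z, hsub hz⟩ : U) = ⟨w, hsub hw⟩ := hemb.injective hzw
    exact congrArg Subtype.val h1
  have hd : ∀ z ∈ closedBall n r, HasFDerivWithinAt f (fderiv ℝ f z) (closedBall n r) z := by
    intro z hz
    have h1 : DifferentiableAt ℝ f z :=
      (hsm.contDiffAt (hU.mem_nhds (hsub hz))).differentiableAt (by simp)
    exact h1.hasFDerivAt.hasFDerivWithinAt
  have hm : MeasurableSet (closedBall n r) := (n1_isCompact n r).isClosed.measurableSet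
  rw [← MeasureTheory.lintegral_abs_det_fderiv_eq_addHaar_image MeasureTheory.volume hm hd hinj]
  have h2 : ∫⁻ z in closedBall n r, ENNReal.ofReal |(fderiv ℝ f z).det| =
      ∫⁻ z in closedBall n r, 1 := by
    refine MeasureTheory.setLIntegral_congr_fun hm ?_
    intro z hz
    show ENNReal.ofReal |(fderiv ℝ f z).det| = 1
    rw [abs_det_of_omega _ (hom z (hsub hz)), ENNReal.ofReal_one]
  rw [h2, MeasureTheory.setLIntegral_one]

theorem volume_necessary (n k : ℕ) (hn : 1 ≤ n) (R : ℝ) (r : Fin k → ℝ) (hR : 0 < R)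
    (hr : ∀ i, 0 < r i) (h : Packs (openBall n R) r) : ∑ i, r i ^ n < R ^ n := by
  obtain ⟨C, hC0, hCt, hC⟩ := volume_closedBall n
  obtain ⟨f, hf, hsub, hdis⟩ := h
  have hcomp : ∀ i, IsCompact (f i '' closedBall n (r i)) := by
    intro i
    obtain ⟨U, hU, hs, hsm, -⟩ := hf i
    exact (n1_isCompact n (r i)).image_of_continuousOn (hsm.continuousOn.mono hs)
  have hK : IsCompact (⋃ i, f i '' closedBall n (r i)) := isCompact_iUnion hcomp
  have hKs : (⋃ i, f i '' closedBall n (r i)) ⊆ openBall n R := Set.iUnion_subset hsub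
  obtain ⟨R', hR'0, hR', hKR⟩ : ∃ R' : ℝ, 0 < R' ∧ R' < R ∧
      (⋃ i, f i '' closedBall n (r i)) ⊆ closedBall n R' := by
    rcases Set.eq_empty_or_nonempty (⋃ i, f i '' closedBall n (r i)) with he | hne
    · exact ⟨R / 2, by linarith, by linarith, by rw [he]; exact Set.empty_subset _⟩
    · obtain ⟨z, hz, hmax⟩ := hK.exists_isMaxOn hne (n1_continuous n).continuousOn
      have h1 : Real.pi * ∑ j, ‖z j‖ ^ 2 < R := hKs hz
      refine ⟨max (Real.pi * ∑ j, ‖z j‖ ^ 2) (R / 2), ?_, ?_, ?_⟩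
      · exact lt_of_lt_of_le (by linarith) (le_max_right _ _)
      · exact max_lt h1 (by linarith)
      · intro w hw
        have h2 : Real.pi * ∑ j, ‖w j‖ ^ 2 ≤ Real.pi * ∑ j, ‖z j‖ ^ 2 := hmax hw
        exact h2.trans (le_max_left _ _)
  have h1 : MeasureTheory.volume (⋃ i, f i '' closedBall n (r i)) =
      ∑ i, MeasureTheory.volume (f i '' closedBall n (r i)) := by
    rw [MeasureTheory.measure_iUnion hdis (fun i => (hcomp i).isClosed.measurableSet),
      tsum_fintype]
  have h2 : ∑ i, ENNReal.ofReal (r i ^ n) * C ≤ ENNReal.ofReal (R' ^ n) * C := by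
    calc ∑ i, ENNReal.ofReal (r i ^ n) * C
        = MeasureTheory.volume (⋃ i, f i '' closedBall n (r i)) := by
          rw [h1]
          exact Finset.sum_congr rfl fun i _ => by rw [n1_image (hf i), hC _ (hr i)]
      _ ≤ MeasureTheory.volume (closedBall n R') := MeasureTheory.measure_mono hKR
      _ = _ := hC R' hR'0
  rw [← Finset.sum_mul, ENNReal.mul_le_mul_iff_left hC0 hCt,
    ← ENNReal.ofReal_sum_of_nonneg (fun i _ => by have := hr i; positivity),
    ENNReal.ofReal_le_ofReal_iff (by positivity)] at h2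
  exact h2.trans_lt (pow_lt_pow_left₀ hR' hR'0.le (by omega))

end Vale.Agent.P209.V
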