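import Vale.Agent.P209.V.V10

set_option linter.all false

namespace Vale.Agent.P209.Strong

open Vale.Agent.P209

/-! V10b. As V10, with a larger exceptional set of balls. -/

theorem mid_stability_many (n : ℕ) (hn : 2 ≤ n) : ∃ ε : ℝ, 0 < ε ∧
    ∀ (k : ℕ) (R : ℝ) (r : Fin k → ℝ) (i0 : Fin k) (B : Finset (Fin k)), 0 < R →
      (∀ i, 0 < r i) → ∑ i, r i ^ n < R ^ n → (∀ i j, i < j → r i + r j < R) →
      (∀ i, r i ≤ r i0) → (B.card : ℝ) ≤ n + (ε * R / (R - r i0)) ^ (n - 1) →
      ∑ i with i ≠ i0 ∧ i ∉ B ∧ ε * (R - r i0) < r i, r i ^ n ≤ ε * (R ^ n - r i0 ^ n) →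
      Packs (openBall n R) r := by
  classical
  obtain ⟨d, rfl⟩ : ∃ d, n = d + 1 := ⟨n - 1, by omega⟩
  obtain ⟨eT, heT, hT⟩ := thin_stability d (by omega)
  obtain ⟨eC, heC, hC⟩ := corner_stability (d + 1) hn
  set N : ℝ := (d : ℝ) + 1 with hN
  have hN1 : (1 : ℝ) ≤ N := by
    rw [hN]
    have : (0 : ℝ) ≤ (d : ℝ) := Nat.cast_nonneg d
    linarith
  have hN0 : 0 < N := by linarith
  set η : ℝ := 1 / (24 * N ^ 2) with hη
  have hη0 : 0 < η := by positivity
  set c : ℝ := eT ^ (d + 1) / (4 * N * (24 * N) ^ d) with hc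
  have hc0 : 0 < c := by positivity
  set e1 : ℝ := 1 / (96 * N ^ 2) with he1
  have he10 : 0 < e1 := by positivity
  refine ⟨min (min (min eT eC) (min ((eC * η) ^ (d + 1)) c)) e1,
    lt_min (lt_min (lt_min heT heC) (lt_min (by positivity) hc0)) he10, ?_⟩
  intro k R r i0 B hR hr hsum hpair hmax hB hmed
  set ε : ℝ := min (min (min eT eC) (min ((eC * η) ^ (d + 1)) c)) e1 with hε
  have hε0 : 0 < ε := lt_min (lt_min (lt_min heT heC) (lt_min (by positivity) hc0)) he10
  have hεT : ε ≤ eT := ((min_le_left _ _).trans (min_le_left _ _)).trans (min_le_left _ _)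
  have hεC : ε ≤ eC := ((min_le_left _ _).trans (min_le_left _ _)).trans (min_le_right _ _)
  have hεη : ε ≤ (eC * η) ^ (d + 1) := ((min_le_left _ _).trans (min_le_right _ _)).trans (min_le_left _ _)
  have hεc : ε ≤ c := ((min_le_left _ _).trans (min_le_right _ _)).trans (min_le_right _ _)
  have hε1 : ε ≤ e1 := min_le_right _ _
  have hnn : ∀ i, 0 ≤ r i ^ (d + 1) := fun i => pow_nonneg (hr i).le _
  have hlt : r i0 < R := by
    have h1 : r i0 ^ (d + 1) ≤ ∑ i, r i ^ (d + 1) :=
      Finset.single_le_sum (f := fun i => r i ^ (d + 1)) (fun i _ => hnn i) (Finset.mem_univ i0)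
    exact lt_of_pow_lt_pow_left₀ (d + 1) hR.le (lt_of_le_of_lt h1 hsum)
  have hpair' : ∀ i j, i ≠ j → r i + r j < R := by
    intro i j hij
    rcases lt_or_gt_of_ne hij with h | h
    · exact hpair i j h
    · have := hpair j i h
      linarith
  set w : ℝ := R - r i0 with hw
  have hw0 : 0 < w := by
    rw [hw]
    linarith
  have hmem : ∀ i, i ≠ i0 → i ∉ B → ε * w < r i → r i ^ (d + 1) ≤ ε * (R ^ (d + 1) - r i0 ^ (d + 1)) := by
    intro i h1 h2 h3
    refine le_trans ?_ hmed
    exact Finset.single_le_sum (f := fun i => r i ^ (d + 1)) (fun i _ => hnn i)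
      (Finset.mem_filter.2 ⟨Finset.mem_univ i, h1, h2, h3⟩)
  rcases le_or_gt (η * R) w with hthick | hthin
  · -- thick
    refine hC (Fin k) R r (insert i0 B) i0 hr ?_ (Finset.mem_insert_self _ _)
      (fun i _ => hmax i) hlt (fun i _ j _ hij => hpair' i j hij) ?_ hsum
    · have h1 := Finset.card_insert_le i0 B
      have h2 : (ε * R / w) ^ d < 1 := by
        apply pow_lt_one₀ (by positivity) _ (by omega)
        rw [div_lt_one hw0]
        have h3 : e1 < η := by
          rw [he1, hη]
          apply one_div_lt_one_div_of_lt (by positivity)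
          have : 0 < N ^ 2 := by positivity
          linarith
        calc ε * R ≤ e1 * R := mul_le_mul_of_nonneg_right hε1 hR.le
          _ < η * R := mul_lt_mul_of_pos_right h3 hR
          _ ≤ w := hthick
      have h3 : (B.card : ℝ) < (d : ℝ) + 1 + 1 := by
        have h4 : (B.card : ℝ) ≤ ((d + 1 : ℕ) : ℝ) + (ε * R / w) ^ d := hB
        push_cast at h4
        linarith
      have h5 : B.card < d + 1 + 1 := by exact_mod_cast h3
      omega
    · intro i hi
      simp only [Finset.mem_insert, not_or] at hi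
      rcases le_or_gt (r i) (ε * w) with h | h
      · exact h.trans (mul_le_mul_of_nonneg_right hεC hw0.le)
      · have h1 := hmem i hi.1 hi.2 h
        have h2 : ε * (R ^ (d + 1) - r i0 ^ (d + 1)) ≤ (eC * η) ^ (d + 1) * R ^ (d + 1) := by
          have h3 : R ^ (d + 1) - r i0 ^ (d + 1) ≤ R ^ (d + 1) := by linarith [hnn i0]
          have h4 : 0 < R ^ (d + 1) := by positivity
          calc ε * (R ^ (d + 1) - r i0 ^ (d + 1)) ≤ ε * R ^ (d + 1) :=
                mul_le_mul_of_nonneg_left h3 hε0.le
            _ ≤ (eC * η) ^ (d + 1) * R ^ (d + 1) := mul_le_mul_of_nonneg_right hεη h4.le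
        rw [← mul_pow] at h2
        have h5 : r i ≤ eC * η * R :=
          le_of_pow_le_pow_left₀ (Nat.succ_ne_zero d) (by positivity) (h1.trans h2)
        calc r i ≤ eC * η * R := h5
          _ = eC * (η * R) := by ring
          _ ≤ eC * w := mul_le_mul_of_nonneg_left hthick heC.le
  · -- thin
    set x : ℝ := R / (12 * N * w) with hx
    have hx2 : 2 * N ≤ x := by
      rw [hx, le_div_iff₀ (by positivity)]
      have h1 : w * (24 * N ^ 2) < R := by
        have h2 : η * R * (24 * N ^ 2) = R := by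
          rw [hη]
          field_simp
        calc w * (24 * N ^ 2) < η * R * (24 * N ^ 2) := by
              apply mul_lt_mul_of_pos_right hthin
              positivity
          _ = R := h2
      nlinarith
    have hx0 : 0 ≤ x := by positivity
    set M : ℕ := ⌊x⌋₊ with hM
    have hMx : (M : ℝ) ≤ x := Nat.floor_le hx0
    have hMx' : x < (M : ℝ) + 1 := Nat.lt_floor_add_one x
    have hM2n : 2 * (d + 1) ≤ M := by
      apply Nat.le_floor
      push_cast
      rw [← hN]
      exact hx2
    have hMhalf : x / 2 ≤ (M : ℝ) := by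
      have : 2 ≤ x := by linarith
      linarith
    have hM1 : 1 ≤ M := by omega
    set D : Finset (Fin k) := Finset.univ.filter fun i => i ≠ i0 ∧ i ∉ B ∧ eT * w < r i with hD
    have hcardD : (D.card : ℝ) ≤ (M : ℝ) ^ d / 4 := by
      have h1 : (D.card : ℝ) * (eT * w) ^ (d + 1) ≤ ∑ i ∈ D, r i ^ (d + 1) := by
        rw [← nsmul_eq_mul]
        apply Finset.card_nsmul_le_sum
        intro i hi
        rw [hD, Finset.mem_filter] at hi
        exact pow_le_pow_left₀ (by positivity) hi.2.2.2.le _
      have h2 : ∑ i ∈ D, r i ^ (d + 1) ≤ ε * (R ^ (d + 1) - r i0 ^ (d + 1)) := by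
        refine le_trans ?_ hmed
        apply Finset.sum_le_sum_of_subset_of_nonneg
        · intro i hi
          rw [hD, Finset.mem_filter] at hi
          rw [Finset.mem_filter]
          refine ⟨hi.1, hi.2.1, hi.2.2.1, lt_of_le_of_lt ?_ hi.2.2.2⟩
          exact mul_le_mul_of_nonneg_right hεT hw0.le
        · intro i _ _
          exact hnn i
      have h3 : R ^ (d + 1) - r i0 ^ (d + 1) ≤ N * w * R ^ d :=
        v10_pow_sub d R (r i0) (hr i0).le hlt.le
      have h4 : ε * (R ^ (d + 1) - r i0 ^ (d + 1)) ≤ c * (N * w * R ^ d) := by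
        calc ε * (R ^ (d + 1) - r i0 ^ (d + 1)) ≤ ε * (N * w * R ^ d) :=
              mul_le_mul_of_nonneg_left h3 hε0.le
          _ ≤ c * (N * w * R ^ d) := mul_le_mul_of_nonneg_right hεc (by positivity)
      have h5 : (D.card : ℝ) * (eT * w) ^ (d + 1) ≤ c * (N * w * R ^ d) :=
        h1.trans (h2.trans h4)
      -- divide
      have h6 : (D.card : ℝ) ≤ (R / (24 * N * w)) ^ d / 4 := by
        have h7 : c * (N * w * R ^ d) = ((R / (24 * N * w)) ^ d / 4) * (eT * w) ^ (d + 1) := by
          have e1 : (24 * N * w) ^ d = (24 * N) ^ d * w ^ d := mul_pow _ _ _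
          have e2 : (eT * w) ^ (d + 1) = eT ^ (d + 1) * (w ^ d * w) := by
            rw [mul_pow, pow_succ w d]
          rw [hc, div_pow, e1, e2]
          have hP : ((24 * N) ^ d : ℝ) ≠ 0 := by positivity
          have hW : (w ^ d : ℝ) ≠ 0 := by positivity
          generalize ((24 * N) ^ d : ℝ) = P at hP ⊢
          generalize (w ^ d : ℝ) = W at hW ⊢
          generalize (R ^ d : ℝ) = Q
          generalize (eT ^ (d + 1) : ℝ) = T
          field_simp
        rw [h7] at h5
        exact le_of_mul_le_mul_right h5 (by positivity)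
      refine h6.trans ?_
      have h8 : R / (24 * N * w) ≤ (M : ℝ) := by
        have : R / (24 * N * w) = x / 2 := by
          rw [hx]
          field_simp
          norm_num
        rw [this]
        exact hMhalf
      have h9 : (R / (24 * N * w)) ^ d ≤ (M : ℝ) ^ d := pow_le_pow_left₀ (by positivity) h8 _
      linarith
    have hcardB : ((B.erase i0).card : ℝ) ≤ 3 * (M : ℝ) ^ d / 4 := by
      have h0 : (((B.erase i0).card : ℕ) : ℝ) ≤ (B.card : ℝ) := by
        exact_mod_cast (Finset.card_erase_le (s := B) (a := i0))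
      have h1 : (B.card : ℝ) ≤ ((d + 1 : ℕ) : ℝ) + (ε * R / w) ^ d := hB
      have h2 : M ≤ M ^ d := Nat.le_self_pow (by omega) M
      have h3 : 2 * (d + 1) ≤ M ^ d := by omega
      have h4 : (2 : ℝ) * ((d + 1 : ℕ) : ℝ) ≤ (M : ℝ) ^ d := by exact_mod_cast h3
      have h8 : R / (24 * N * w) ≤ (M : ℝ) := by
        have : R / (24 * N * w) = x / 2 := by
          rw [hx]
          field_simp
          norm_num
        rw [this]
        exact hMhalf
      have h9 : (R / (24 * N * w)) ^ d ≤ (M : ℝ) ^ d := pow_le_pow_left₀ (by positivity) h8 _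
      have h10 : (ε * R / w) ^ d ≤ (M : ℝ) ^ d / 4 := by
        have h11 : ε * R / w ≤ (1 / 4) * (R / (24 * N * w)) := by
          have h12 : e1 ≤ 1 / (96 * N) := by
            rw [he1]
            apply one_div_le_one_div_of_le (by positivity)
            have : N ≤ N ^ 2 := by nlinarith
            linarith
          calc ε * R / w = ε * (R / w) := by ring
            _ ≤ 1 / (96 * N) * (R / w) := mul_le_mul_of_nonneg_right (hε1.trans h12) (by positivity)
            _ = (1 / 4) * (R / (24 * N * w)) := by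
              field_simp
              norm_num
        calc (ε * R / w) ^ d ≤ ((1 / 4) * (R / (24 * N * w))) ^ d := pow_le_pow_left₀ (by positivity) h11 _
          _ = (1 / 4 : ℝ) ^ d * (R / (24 * N * w)) ^ d := mul_pow _ _ _
          _ ≤ (1 / 4 : ℝ) * (M : ℝ) ^ d := by
            apply mul_le_mul _ h9 (by positivity) (by norm_num)
            exact pow_le_of_le_one (by norm_num) (by norm_num) (by omega)
          _ = (M : ℝ) ^ d / 4 := by ring
      linarith
    have hcard : (B.erase i0 ∪ D).card ≤ M ^ d := by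
      have h1 : (B.erase i0 ∪ D).card ≤ (B.erase i0).card + D.card := Finset.card_union_le _ _
      have h2 : (((B.erase i0 ∪ D).card : ℕ) : ℝ) ≤ ((M ^ d : ℕ) : ℝ) := by
        push_cast
        calc (((B.erase i0 ∪ D).card : ℕ) : ℝ) ≤ ((B.erase i0).card : ℝ) + (D.card : ℝ) := by
              exact_mod_cast h1
          _ ≤ 3 * (M : ℝ) ^ d / 4 + (M : ℝ) ^ d / 4 := add_le_add hcardB hcardD
          _ = (M : ℝ) ^ d := by ring
      exact_mod_cast h2
    refine hT (Fin k) R r (B.erase i0 ∪ D) i0 M hr ?_ hlt ?_ hM1 hcard ?_ ?_ hsum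
    · simp [hD]
    · intro i hi
      apply hpair'
      rintro rfl
      simp [hD] at hi
    · have h1 : 12 * ((d : ℝ) + 1) * (R - r i0) * (M : ℝ) ≤ 12 * ((d : ℝ) + 1) * (R - r i0) * x :=
        mul_le_mul_of_nonneg_left hMx (by positivity)
      refine h1.trans (le_of_eq ?_)
      rw [hx, ← hN, ← hw]
      field_simp
    · intro i h1 h2
      by_contra h3
      rw [not_le] at h3
      apply h2
      rw [Finset.mem_union]
      by_cases h4 : i ∈ B
      · left
        exact Finset.mem_erase.2 ⟨h1, h4⟩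
      · right
        rw [hD, Finset.mem_filter]
        exact ⟨Finset.mem_univ i, h1, h4, h3⟩

end Vale.Agent.P209.Strong
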