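import Vale.Agent.P209.V.W1
import Vale.Agent.P209.MM.Q8b
import Vale.Agent.P209.MM.U4
import Vale.Agent.P209.SmallK

set_option linter.all false

namespace Vale.Agent.P209.MM

open Vale.Agent.P209 Vale.Agent.P209.Strong

/-! W2. One arbitrary ball, and balls which fill less than `3 ^ (-n)` of the complement. -/

theorem w2_volume {κ : Type} [Fintype κ] (n : ℕ) (hn : 1 ≤ n) (R : ℝ) (r : κ → ℝ) (hR : 0 < R)
    (hr : ∀ i, 0 < r i) (hvol : 2 ^ (n - 1) * ∑ i, r i ^ n < R ^ n) :
    Packs (openBall n R) r := by
  have h1 := packs_volume n (Fintype.card κ) hn R (fun i => r ((Fintype.equivFin κ).symm i)) hR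
    (fun i => hr _) (by
      rw [Equiv.sum_comp (Fintype.equivFin κ).symm (fun i => r i ^ n)]
      exact hvol)
  have h2 := Packs.comp_inj h1 (Fintype.equivFin κ) (Fintype.equivFin κ).injective
  simpa using h2

theorem w2_single {κ : Type} [Fintype κ] (hκ : Fintype.card κ ≤ 1) (n : ℕ) (hn : 1 ≤ n) (R : ℝ)
    (r : κ → ℝ) (hR : 0 < R) (hr : ∀ i, 0 < r i) (hlt : ∀ i, r i < R) :
    Packs (openBall n R) r := by
  have h1 := packs_small n (Fintype.card κ) hn (hκ.trans Nat.one_le_two_pow) R
    (fun i => r ((Fintype.equivFin κ).symm i)) hR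
    (fun i => hr _) (by
      rw [Equiv.sum_comp (Fintype.equivFin κ).symm (fun i => r i ^ n)]
      rcases Nat.le_one_iff_eq_zero_or_eq_one.1 hκ with h0 | h0
      · rw [Fintype.card_eq_zero_iff] at h0
        simp only [Finset.univ_eq_empty, Finset.sum_empty]
        positivity
      · rw [Fintype.card_eq_one_iff] at h0
        obtain ⟨a, ha⟩ := h0
        have h2 : (Finset.univ : Finset κ) = {a} := by
          ext b
          simp [ha b]
        rw [h2, Finset.sum_singleton]
        exact pow_lt_pow_left₀ (hlt a) (hr a).le (by omega))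
    (by
      intro i j hij
      exfalso
      have h3 : (i : ℕ) < j := hij
      have := j.2
      omega)
  have h2 := Packs.comp_inj h1 (Fintype.equivFin κ) (Fintype.equivFin κ).injective
  simpa using h2

/-- the ball of radius `r i0` at index `0`, then `N` balls of radius `w`. -/
noncomputable def w2_s (a w : ℝ) (N : ℕ) (i : ℕ) : ℝ := if i = 0 then a else if i ≤ N then w else 0

theorem packs_around_volume (n k : ℕ) (hn : 3 ≤ n) (R : ℝ) (r : Fin k → ℝ) (i0 : Fin k)
    (hR : 0 < R) (hr : ∀ i, 0 < r i) (hmax : ∀ i, r i ≤ r i0) (hlt : r i0 < R)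
    (hpair : ∀ i, i ≠ i0 → r i + r i0 < R)
    (hvol : r i0 ^ n + 3 ^ n * ∑ i with i ≠ i0, r i ^ n ≤ R ^ n) :
    Packs (openBall n R) r := by
  classical
  have hn1 : 1 ≤ n := by omega
  have hr0 : 0 < r i0 := hr i0
  have hV0 : 0 ≤ ∑ i with i ≠ i0, r i ^ n := Finset.sum_nonneg fun i _ => (pow_pos (hr i) n).le
  have hsum : ∑ i, r i ^ n = r i0 ^ n + ∑ i with i ≠ i0, r i ^ n := by
    rw [← Finset.add_sum_erase Finset.univ (fun i => r i ^ n) (Finset.mem_univ i0)]
    congr 1
    refine Finset.sum_congr ?_ fun _ _ => rfl
    ext i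
    simp
  rcases lt_or_ge (2 * r i0) R with hc | hc
  · -- the volume criterion
    refine packs_volume n k hn1 R r hR hr ?_
    rw [hsum]
    set V := ∑ i with i ≠ i0, r i ^ n with hV
    have h1 : (2 * r i0) ^ n < R ^ n := pow_lt_pow_left₀ hc (by positivity) (by omega)
    rw [mul_pow] at h1
    have h2 : (2 : ℝ) ^ n = 2 * 2 ^ (n - 1) := by
      rw [← pow_succ']
      congr 1
      omega
    rw [h2] at h1
    have h3 : (2 : ℝ) * 2 ^ (n - 1) ≤ 3 ^ n := by
      rw [← h2]
      exact pow_le_pow_left₀ (by norm_num) (by norm_num) n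
    have hT : (1 : ℝ) ≤ 2 ^ (n - 1) := one_le_pow₀ (by norm_num)
    set T : ℝ := 2 ^ (n - 1) with hTdef
    set S : ℝ := 3 ^ n with hSdef
    have hA : 0 < r i0 ^ n := by positivity
    set A := r i0 ^ n with hAdef
    have hB : 0 < R ^ n := by positivity
    set B := R ^ n with hBdef
    have h4 : S * (T * (A + V)) < S * B := by
      have h5 : S * (T * (A + V)) = T * (S * A) + T * (S * V) := by ring
      have h6 : T * (S * V) ≤ T * (B - A) := mul_le_mul_of_nonneg_left (by linarith) (by linarith)
      have h7 : T * A * (S - 1) ≤ B / 2 * (S - 1) :=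
        mul_le_mul_of_nonneg_right (by linarith) (by linarith)
      have h8 : T * B ≤ S / 2 * B := mul_le_mul_of_nonneg_right (by linarith) hB.le
      nlinarith
    exact lt_of_mul_lt_mul_left h4 (by linarith)
  · -- `R ≤ 2 r i0`
    set w := R - r i0 with hw
    have hw0 : 0 < w := by rw [hw]; linarith
    have hwr : w ≤ r i0 := by rw [hw]; linarith
    set x := r i0 / w with hx
    have hxw : x * w = r i0 := by rw [hx]; field_simp
    have hx1 : 1 ≤ x := by rw [hx, le_div_iff₀ hw0]; linarith
    have hx0 : 0 ≤ x := by linarith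
    set j := Nat.floor x with hj
    have hj1 : 1 ≤ j := by
      rw [hj]
      exact (Nat.one_le_floor_iff x).2 hx1
    have hjx : (j : ℝ) ≤ x := Nat.floor_le hx0
    have hxj : x ≤ (j : ℝ) + 1 := (Nat.lt_floor_add_one x).le
    have hineq := around_ineq n j hn hj1 x hx0 hxj
    set G : ℝ := ((j : ℝ) + 1) ^ n - (j : ℝ) ^ n with hG
    -- the choice of `w'`
    have e1 : ∀ᶠ y in nhdsWithin w (Set.Iio w), (G - 37 / 27) * (w / y) ^ n + 1 < G := by
      have hcont : ContinuousAt (fun y : ℝ => (G - 37 / 27) * (w / y) ^ n + 1) w := by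
        refine ContinuousAt.add (ContinuousAt.mul continuousAt_const
          (ContinuousAt.pow (ContinuousAt.div continuousAt_const continuousAt_id hw0.ne') n))
          continuousAt_const
      have h1 : (G - 37 / 27) * (w / w) ^ n + 1 < G := by
        rw [div_self hw0.ne', one_pow]
        linarith
      exact (hcont.eventually (eventually_lt_nhds h1)).filter_mono nhdsWithin_le_nhds
    have e2 : ∀ᶠ y in nhdsWithin w (Set.Iio w), ∀ i : {i // i ≠ i0}, r i < y := by
      rw [Filter.eventually_all]
      intro i
      have h1 : r i < w := by rw [hw]; linarith [hpair i i.2]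
      exact (eventually_gt_nhds h1).filter_mono nhdsWithin_le_nhds
    have e3 : ∀ᶠ y in nhdsWithin w (Set.Iio w), y < w := self_mem_nhdsWithin
    have e4 : ∀ᶠ y in nhdsWithin w (Set.Iio w), 0 < y :=
      (eventually_gt_nhds hw0).filter_mono nhdsWithin_le_nhds
    obtain ⟨w', h1, h2, h3, h4⟩ := (e1.and (e2.and (e3.and e4))).exists
    have hw'n : 0 < w' ^ n := by positivity
    set c : ℝ := w' ^ n / 2 ^ (n - 1) with hc'
    have hc0 : 0 < c := by positivity
    obtain ⟨N, g, hg, hN⟩ := group_fit (ι := {i // i ≠ i0}) (fun i => r i ^ n)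
      (fun i => pow_pos (hr i) n) c hc0
    have hVs : ∑ i : {i // i ≠ i0}, r i ^ n = ∑ i with i ≠ i0, r i ^ n := by
      rw [← Finset.sum_subtype_eq_sum_filter]
      refine Finset.sum_congr ?_ fun _ _ => rfl
      ext i
      simp
    rw [hVs] at hN
    set V := ∑ i with i ≠ i0, r i ^ n with hV
    -- the number of groups
    have hNG : (N : ℝ) < G := by
      have k1 : R = w * (x + 1) := by
        have : w * (x + 1) = x * w + w := by ring
        rw [this, hxw, hw]
        ring
      have k2 : R ^ n - r i0 ^ n = w ^ n * ((x + 1) ^ n - x ^ n) := by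
        rw [k1, ← hxw, mul_pow, mul_pow]
        ring
      have k3 : 3 ^ n * V ≤ w ^ n * ((x + 1) ^ n - x ^ n) := by
        rw [← k2]
        linarith
      have k4 : (2 : ℝ) ^ n * V ≤ w ^ n * (G - 37 / 27) := by
        have hw1 : 0 < w ^ n := by positivity
        have k5 : (2 : ℝ) ^ n * V = (2 / 3 : ℝ) ^ n * (3 ^ n * V) := by
          rw [← mul_assoc, ← mul_pow]
          norm_num
        rw [k5]
        have k6 : (2 / 3 : ℝ) ^ n * (3 ^ n * V) ≤
            (2 / 3 : ℝ) ^ n * (w ^ n * ((x + 1) ^ n - x ^ n)) :=
          mul_le_mul_of_nonneg_left k3 (by positivity)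
        have k7 : (2 / 3 : ℝ) ^ n * (w ^ n * ((x + 1) ^ n - x ^ n)) =
            w ^ n * ((2 / 3 : ℝ) ^ n * ((x + 1) ^ n - x ^ n)) := by ring
        rw [k7] at k6
        refine k6.trans (mul_le_mul_of_nonneg_left (by linarith) hw1.le)
      have k8 : (N : ℝ) ≤ 2 ^ n * V / w' ^ n + 1 := by
        have k9 : (N : ℝ) ≤ (2 * V + c) / c := by
          rw [le_div_iff₀ hc0]
          exact hN
        have k10 : (2 * V + c) / c = 2 ^ n * V / w' ^ n + 1 := by
          have h2 : (2 : ℝ) ^ n = 2 * 2 ^ (n - 1) := by
            rw [← pow_succ']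
            congr 1
            omega
          rw [hc', h2]
          field_simp
        rwa [k10] at k9
      have k11 : 2 ^ n * V / w' ^ n ≤ (G - 37 / 27) * (w / w') ^ n := by
        rw [div_pow, ← mul_div_assoc]
        refine div_le_div_of_nonneg_right ?_ hw'n.le
        rw [mul_comm (G - 37 / 27)]
        exact k4
      linarith
    have hNG' : N < (j + 1) ^ n - j ^ n := by
      have k1 : j ^ n ≤ (j + 1) ^ n := Nat.pow_le_pow_left (by omega) n
      have k2 : (N : ℝ) < (((j + 1) ^ n - j ^ n : ℕ) : ℝ) := by
        rw [Nat.cast_sub k1]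
        push_cast
        exact hNG
      exact_mod_cast k2
    -- the virtual family
    set s : ℕ → ℝ := w2_s (r i0) w' N with hs
    have hs0 : s 0 = r i0 := by simp [hs, w2_s]
    have hsi : ∀ i, 1 ≤ i → i ≤ N → s i = w' := by
      intro i hi hiN
      have : i ≠ 0 := by omega
      simp [hs, w2_s, this, hiN]
    have hsN : ∀ i, 1 ≤ i → ¬ i ≤ N → s i = 0 := by
      intro i hi hiN
      have : i ≠ 0 := by omega
      simp [hs, w2_s, this, hiN]
    have hsnn : ∀ i, 0 ≤ s i := by
      intro i
      rcases Nat.eq_zero_or_pos i with rfl | hi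
      · rw [hs0]; exact hr0.le
      · by_cases hiN : i ≤ N
        · rw [hsi i hi hiN]; exact h4.le
        · rw [hsN i hi hiN]
    have hanti : Antitone s := by
      intro a b hab
      rcases Nat.eq_zero_or_pos a with rfl | ha
      · rw [hs0]
        rcases Nat.eq_zero_or_pos b with rfl | hb
        · rw [hs0]
        · by_cases hbN : b ≤ N
          · rw [hsi b hb hbN]; linarith
          · rw [hsN b hb hbN]; exact hr0.le
      · have hb : 1 ≤ b := le_trans ha hab
        by_cases hbN : b ≤ N
        · rw [hsi b hb hbN, hsi a ha (hab.trans hbN)]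
        · rw [hsN b hb hbN]; exact hsnn a
    have hs1 : s 1 ≤ w' := by
      by_cases hN1 : 1 ≤ N
      · rw [hsi 1 le_rfl hN1]
      · rw [hsN 1 le_rfl hN1]; exact h4.le
    have hLL : LL n (j + 1) j s < R := by
      unfold LL
      have k1 : Finset.Ico j (j + 1) = {j} := by
        ext a
        rw [Finset.mem_Ico, Finset.mem_singleton]
        omega
      rw [k1, Finset.sum_singleton, Nat.sub_self, zero_add, hs0]
      have k2 : (j : ℝ) * s 1 ≤ r i0 := by
        have k3 : (j : ℝ) * s 1 ≤ x * w := mul_le_mul hjx (by linarith) (hsnn 1) hx0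
        rwa [hxw] at k3
      rw [max_eq_left k2]
      have : R = r i0 + w := by rw [hw]; ring
      linarith
    have hmm : Packs (openBall n R) (fun i : Fin (N + 1) => s i) := by
      refine packs_mm n (j + 1) j (N + 1) hn1 (by omega) R s hanti hsnn ?_ hLL ?_
      · intro i hi
        rcases Nat.eq_zero_or_pos i with rfl | hi0
        · rw [hs0]; exact hr0
        · rw [hsi i hi0 (by omega)]; exact h4
      · intro h
        exfalso
        omega
    -- the groups
    set g' : {i // i ≠ i0} → Option (Fin N) := fun i => some (g i) with hg'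
    have hun : Packs (openBall n R)
        (Sum.elim (fun _ : Unit => r i0) (fun i : {i // i ≠ i0} => r i)) := by
      refine packs_unmerge (N := N) (fun _ : Unit => r i0) (fun i : {i // i ≠ i0} => r i) g'
        (fun _ => w') ?_ ?_
      · let e : (Unit ⊕ Fin N) ⊕ {i // g' i = none} → Fin (N + 1) :=
          Sum.elim (Sum.elim (fun _ => 0) Fin.succ) (fun i => absurd i.2 (by simp [hg']))
        have he : Function.Injective e := by
          rintro ((a | a) | a) ((b | b) | b) hab
          · rfl
          · exact absurd hab (Fin.succ_ne_zero b).symm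
          · exact absurd b.2 (by simp [hg'])
          · exact absurd hab (Fin.succ_ne_zero a)
          · rw [Fin.succ_injective _ hab]
          · exact absurd b.2 (by simp [hg'])
          · exact absurd a.2 (by simp [hg'])
          · exact absurd a.2 (by simp [hg'])
          · exact absurd a.2 (by simp [hg'])
        have h5 := Packs.comp_inj hmm e he
        have h6 : (fun k => s (e k)) = Sum.elim (Sum.elim (fun _ : Unit => r i0)
            (fun _ : Fin N => w')) (fun i : {i // g' i = none} => r i) := by
          funext z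
          rcases z with (a | a) | a
          · exact hs0
          · exact hsi _ (by simp [e]) (by
              have := a.2
              simp [e]
              )
          · exact absurd a.2 (by simp [hg'])
        rw [h6] at h5
        exact h5
      · intro q
        have hmem : ∀ i : {i // g' i = some q}, g i.1 = q := fun i => by
          have := i.2
          simpa [hg'] using this
        rcases hg q with hq | hq
        · refine w2_single ?_ n hn1 w' _ h4 (fun i => hr _) (fun i => h2 _)
          rw [Fintype.card_subtype]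
          have : (Finset.univ.filter fun i => g' i = some q) =
              Finset.univ.filter fun i => g i = q := by
            ext i
            simp [hg']
          rw [this, hq]
        · refine w2_volume n hn1 w' _ h4 (fun i => hr _) ?_
          have k1 : ∑ i : {i // g' i = some q}, r i ^ n = ∑ i with g i = q, r i ^ n := by
            have k2 : (Finset.univ.filter fun i => g i = q) =
                Finset.univ.filter fun i => g' i = some q := by
              ext i
              simp [hg']
            rw [k2, ← Finset.sum_subtype_eq_sum_filter]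
            refine Finset.sum_congr ?_ fun _ _ => rfl
            ext i
            simp
          rw [k1]
          have hT : (0 : ℝ) < 2 ^ (n - 1) := by positivity
          have k3 := mul_lt_mul_of_pos_left hq hT
          rw [hc'] at k3
          have k4 : (2 : ℝ) ^ (n - 1) * (w' ^ n / 2 ^ (n - 1)) = w' ^ n := by field_simp
          rw [k4] at k3
          exact k3
    let e : Fin k → Unit ⊕ {i // i ≠ i0} := fun i =>
      if h : i = i0 then Sum.inl () else Sum.inr ⟨i, h⟩
    have he : Function.Injective e := by
      intro a b hab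
      by_cases ha : a = i0
      · by_cases hb : b = i0
        · rw [ha, hb]
        · simp [e, ha, hb] at hab
      · by_cases hb : b = i0
        · simp [e, ha, hb] at hab
        · simpa [e, ha, hb] using hab
    have h5 := Packs.comp_inj hun e he
    have h6 : (fun k => Sum.elim (fun _ : Unit => r i0) (fun i : {i // i ≠ i0} => r i) (e k)) = r := by
      funext i
      by_cases hi : i = i0
      · simp [e, hi]
      · simp [e, hi]
    rw [h6] at h5
    exact h5

end Vale.Agent.P209.MM
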