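import Vale.Agent.P209.SmallK
import Vale.Agent.P209.Strong.E1
import Vale.Agent.P209.Strong.M2
import Vale.Agent.P209.MM.Q8b
import Vale.Agent.P209.MM.U8
import Vale.Agent.P209.MM.U9
import Vale.Agent.P209.V.V10b
import Vale.Agent.P209.V.W2
import Vale.Agent.P209.V.N1

set_option linter.all false

namespace Vale.Agent.P209.V

open Vale.Agent.P209

theorem main :
    (∀ n : ℕ, 2 ≤ n → ∃ ε : ℝ, 0 < ε ∧ ∀ (k : ℕ) (R : ℝ) (r : Fin k → ℝ), 0 < R →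
      (∀ i, 0 < r i ∧ r i ≤ ε * R) → (Packs (openBall n R) r ↔ ∑ i, r i ^ n < R ^ n)) ∧
    (∀ (n k : ℕ), 1 ≤ n → 1 ≤ k → k ≤ 2 ^ n → ∀ (R : ℝ) (r : Fin k → ℝ), 0 < R →
      (∀ i, 0 < r i) → ∑ i, r i ^ n < R ^ n → (∀ i j, i < j → r i + r j < R) →
      Packs (openBall n R) r) ∧
    (∀ n : ℕ, 2 ≤ n → ∃ ε : ℝ, 0 < ε ∧ ∀ (k : ℕ) (R : ℝ) (r : Fin k → ℝ), 0 < R →
      (∀ i, 0 < r i) → ∑ i, r i ^ n < R ^ n → (∀ i j, i < j → r i + r j < R) →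
      ∀ (i0 : Fin k) (B : Finset (Fin k)), (∀ i, r i ≤ r i0) →
      (B.card : ℝ) ≤ n + (ε * R / (R - r i0)) ^ (n - 1) →
      ∑ i with i ≠ i0 ∧ i ∉ B ∧ ε * (R - r i0) < r i, r i ^ n ≤ ε * (R ^ n - r i0 ^ n) →
      Packs (openBall n R) r) ∧
    (∀ (n k : ℕ), 1 ≤ n → ∀ (R : ℝ) (r : Fin k → ℝ), 0 < R → (∀ i, 0 < r i) →
      2 ^ (n - 1) * ∑ i, r i ^ n < R ^ n → Packs (openBall n R) r) ∧
    (∀ n : ℕ, 2 ≤ n → ∀ γ : ℝ, 0 < γ → ∃ ε : ℝ, 0 < ε ∧ ∀ (k : ℕ) (R : ℝ) (r : Fin k → ℝ),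
      0 < R → (∀ i, 0 < r i) → 2 ^ (n - 1) * ∑ i with ε * R < r i, r i ^ n ≤ (1 - γ) * R ^ n →
      ∑ i, r i ^ n < R ^ n → Packs (openBall n R) r) ∧
    (∀ (n m j k K : ℕ) (R L : ℝ) (r : ℕ → ℝ), 1 ≤ n → j ≤ m → Antitone r → (∀ i, 0 ≤ r i) →
      (∀ i, i < k → 0 < r i) → K = m ^ n - j ^ n + 1 →
      L = max (r 0) (j * r 1) + ∑ q ∈ Finset.Ico j m, r (q ^ n - j ^ n + 1) → L < R →
      (K < k → L ^ n + ∑ i ∈ Finset.Ico (K + 1) k, r i ^ n < (R - r K) ^ n) →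
      Packs (openBall n R) (fun i : Fin k => r i)) ∧
    (∀ n : ℕ, 2 ≤ n → ∀ γ : ℝ, 0 < γ → ∃ ε : ℝ, 0 < ε ∧
      ∀ (m j M k K : ℕ) (R L : ℝ) (r : ℕ → ℝ), 0 < R → j ≤ m → Antitone r → (∀ i, 0 ≤ r i) →
      (∀ i, i < k → 0 < r i) → K = m ^ n - j ^ n + 1 →
      L = max (r 0) (j * r 1) + ∑ q ∈ Finset.Ico j m, r (q ^ n - j ^ n + 1) →
      L ≤ (1 - γ) * R →
      (K < M → L ^ n + ∑ i ∈ Finset.Ico (K + 1) M, r i ^ n ≤ ((1 - γ) * R - r K) ^ n) →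
      r M ≤ ε * R → ∑ i ∈ Finset.range k, r i ^ n < R ^ n →
      Packs (openBall n R) (fun i : Fin k => r i)) ∧
    (∀ (n k : ℕ), 3 ≤ n → ∀ (R : ℝ) (r : Fin k → ℝ), 0 < R → (∀ i, 0 < r i) →
      ∑ i, r i ^ n < R ^ n → (∀ i j, i < j → r i + r j < R) → ∀ i0 : Fin k, (∀ i, r i ≤ r i0) →
      3 ^ n * ∑ i with i ≠ i0, r i ^ n ≤ R ^ n - r i0 ^ n → Packs (openBall n R) r) ∧
    (∀ n : ℕ, 2 ≤ n → ∃ C q : ℝ, 0 < C ∧ 0 < q ∧ q < 1 ∧ ∀ k : ℕ,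
      MeasureTheory.volume {r : Fin k → ℝ | ((∀ i, 0 < r i) ∧ ∑ i, r i ^ n < 1 ∧
        ∀ i j, i < j → r i + r j < 1) ∧ ¬ Packs (openBall n 1) r} ≤
      ENNReal.ofReal (C * q ^ k) * MeasureTheory.volume {r : Fin k → ℝ | (∀ i, 0 < r i) ∧
        ∑ i, r i ^ n < 1 ∧ ∀ i j, i < j → r i + r j < 1}) := by
  refine ⟨?_, ?_, ?_, ?_, ?_, ?_, ?_, ?_, ?_⟩
  · intro n hn
    obtain ⟨ε, hε, h⟩ := Vale.Agent.P209.Strong.strong_stability n hn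
    exact ⟨ε, hε, fun k R r hR hr => ⟨fun hp => volume_necessary n k (by omega) R r hR
      (fun i => (hr i).1) hp, fun hvol => h (Fin k) R r hR hr hvol⟩⟩
  · intro n k hn hk hk2 R r hR hr hvol hpair
    exact packs_small n k hn hk2 R r hR hr hvol hpair
  · intro n hn
    obtain ⟨ε, hε, h⟩ := Vale.Agent.P209.Strong.mid_stability_many n hn
    exact ⟨ε, hε, fun k R r hR hr hvol hpair i0 B hmax hB hmid =>
      h k R r i0 B hR hr hvol hpair hmax hB hmid⟩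
  · intro n k hn R r hR hr hvol
    exact Vale.Agent.P209.MM.packs_volume n k hn R r hR hr hvol
  · intro n hn γ hγ
    exact Vale.Agent.P209.MM.relative_volume n hn γ hγ
  · intro n m j k K R L r hn hj hr hr0 hpos hK hL hLR hvol
    subst hK hL
    exact Vale.Agent.P209.MM.packs_mm n m j k hn hj R r hr hr0 hpos hLR hvol
  · intro n hn γ hγ
    obtain ⟨ε, hε, h⟩ := Vale.Agent.P209.MM.relative_mm_free n hn γ hγ
    refine ⟨ε, hε, fun m j M k K R L r hR hj hr hr0 hpos hK hL hLR hvol hM hV => ?_⟩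
    subst hK hL
    exact h m j M k R r hj hr hr0 hpos hR hLR hvol hM hV
  · intro n k hn R r hR hr hsum hpair i0 hmax hvol
    have hlt : r i0 < R := by
      have h1 : r i0 ^ n ≤ ∑ i, r i ^ n :=
        Finset.single_le_sum (f := fun i => r i ^ n) (fun i _ => pow_nonneg (hr i).le n)
          (Finset.mem_univ i0)
      exact lt_of_pow_lt_pow_left₀ n hR.le (h1.trans_lt hsum)
    refine Vale.Agent.P209.MM.packs_around_volume n k hn R r i0 hR hr hmax hlt ?_ (by linarith)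
    intro i hi
    rcases lt_or_gt_of_ne hi with h1 | h1
    · exact hpair i i0 h1
    · have := hpair i0 i h1
      linarith
  · intro n hn
    obtain ⟨ε, hε, h⟩ := Vale.Agent.P209.Strong.strong_stability n hn
    obtain ⟨C, q, hC, hq0, hq1, hV⟩ := Vale.Agent.P209.Strong.PR_large n (by omega)
      (min ε (1 / 2)) (lt_min hε (by norm_num)) ((min_le_right _ _).trans_lt (by norm_num))
    refine ⟨C, q, hC, hq0, hq1, fun k => le_trans (MeasureTheory.measure_mono ?_) (hV k)⟩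
    rintro r ⟨hr, hnot⟩
    refine ⟨hr, ?_⟩
    by_contra hcon
    push Not at hcon
    refine hnot (h (Fin k) 1 r one_pos (fun i => ⟨hr.1 i, ?_⟩) ?_)
    · rw [mul_one]
      exact (hcon i).trans (min_le_left _ _)
    · rw [one_pow]
      exact hr.2.1

end Vale.Agent.P209.V
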