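import Vale.Agent.P209.V.X2
import Vale.Agent.P209.MM.U8

set_option linter.all false

namespace Vale.Agent.P209.MM

open Vale.Agent.P209 Vale.Agent.P209.Strong

/-! X3. Relative packing stability with the chain criterion. -/

theorem relative_chain (n : ℕ) (hn : 2 ≤ n) (γ : ℝ) (hγ : 0 < γ) :
    ∃ ε : ℝ, 0 < ε ∧ ∀ (p m j M k : ℕ) (R : ℝ) (r : ℕ → ℝ), j ≤ m → Antitone r →
      (∀ i, 0 ≤ r i) → (∀ i, i < k → 0 < r i) → 0 < R → r 0 ≤ (1 - γ) * R →
      (∀ q, q < p → q * (2 ^ n - 1) + 1 < M →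
        ∑ i ∈ Finset.range (q + 1), r (i * (2 ^ n - 1)) + r (q * (2 ^ n - 1) + 1) ≤
          (1 - γ) * R) →
      (p * (2 ^ n - 1) < M →
        LL n m j (fun i => r (p * (2 ^ n - 1) + i)) ≤
          (1 - γ) * R - ∑ i ∈ Finset.range p, r (i * (2 ^ n - 1)) ∧
        (m ^ n - j ^ n + 1 < M - p * (2 ^ n - 1) →
          LL n m j (fun i => r (p * (2 ^ n - 1) + i)) ^ n +
          ∑ i ∈ Finset.Ico (m ^ n - j ^ n + 2) (M - p * (2 ^ n - 1)),
            r (p * (2 ^ n - 1) + i) ^ n ≤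
          ((1 - γ) * R - ∑ i ∈ Finset.range p, r (i * (2 ^ n - 1)) -
            r (p * (2 ^ n - 1) + (m ^ n - j ^ n + 1))) ^ n)) →
      r M ≤ ε * R → ∑ i ∈ Finset.range k, r i ^ n < R ^ n →
      Packs (openBall n R) (fun i : Fin k => r i) := by
  classical
  obtain ⟨d, rfl⟩ : ∃ d, n = d + 1 := ⟨n - 1, by omega⟩
  rcases le_or_gt 1 γ with hγ1 | hγ1
  · refine ⟨1, one_pos, ?_⟩
    intro p m j M k R r hj hanti hr0 hrpos hR h0 _ _ _ _
    rcases Nat.eq_zero_or_pos k with rfl | hk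
    · exact u8_empty _
    · exfalso
      have h2 := hrpos 0 hk
      have h3 : (1 - γ) * R ≤ 0 := mul_nonpos_of_nonpos_of_nonneg (by linarith) hR.le
      linarith
  obtain ⟨ε, hε, hrel⟩ := relative_free d (by omega) (γ / 2) (by linarith) (by linarith)
  refine ⟨ε, hε, ?_⟩
  intro p m j M k R r hj hanti hr0 hrpos hR h0 hchain htail hsmall hsum
  have hγR : 0 < γ * R := mul_pos hγ hR
  have hop : OPackIn d (fun i : Fin (min M k) => r i) (tri (d + 1) ((1 - γ / 2) * R)) := by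
    refine x2_chain d p (min M k) ((1 - γ / 2) * R) r hanti hr0 (fun i hi => hrpos i (by omega))
      (fun _ => by nlinarith) (fun q hq hqk => by
        have h3 := hchain q hq (by omega)
        nlinarith) ?_
    intro hpk
    obtain ⟨hL, hvol⟩ := htail (by omega)
    obtain ⟨P, hP⟩ : ∃ P, p * (2 ^ (d + 1) - 1) = P := ⟨_, rfl⟩
    rw [hP] at hpk hL hvol ⊢
    obtain ⟨A, hA⟩ : ∃ A, ∑ i ∈ Finset.range p, r (i * (2 ^ (d + 1) - 1)) = A := ⟨_, rfl⟩
    rw [hA] at hL hvol ⊢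
    obtain ⟨s, hs⟩ : ∃ s : ℕ → ℝ, s = fun i => r (P + i) := ⟨_, rfl⟩
    have hs0 : ∀ i, 0 ≤ s i := fun i => by rw [hs]; exact hr0 _
    have hsanti : Antitone s := by
      rw [hs]
      exact fun a b hab => hanti (Nat.add_le_add_left hab _)
    have hL : LL (d + 1) m j s ≤ (1 - γ) * R - A := by rw [hs]; exact hL
    have hvol : m ^ (d + 1) - j ^ (d + 1) + 1 < M - P → LL (d + 1) m j s ^ (d + 1) +
        ∑ i ∈ Finset.Ico (m ^ (d + 1) - j ^ (d + 1) + 2) (M - P), s i ^ (d + 1) ≤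
        ((1 - γ) * R - A - s (m ^ (d + 1) - j ^ (d + 1) + 1)) ^ (d + 1) := by
      rw [hs]; exact hvol
    rw [show (fun i : Fin (min M k - P) => r (P + (i : ℕ))) = fun i : Fin (min M k - P) => s i by
      rw [hs]]
    have h5 : s 0 ≤ LL (d + 1) m j s := u8_le_LL (d + 1) m j s hs0
    refine mm_opack d m j (min M k - P) hj _ s hsanti hs0 (by linarith) ?_
    intro hK
    have h6 := hvol (by omega)
    have h7 : ∑ i ∈ Finset.Ico (m ^ (d + 1) - j ^ (d + 1) + 2) (min M k - P),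
        s i ^ (d + 1) ≤
        ∑ i ∈ Finset.Ico (m ^ (d + 1) - j ^ (d + 1) + 2) (M - P), s i ^ (d + 1) := by
      refine Finset.sum_le_sum_of_subset_of_nonneg ?_ fun i _ _ => pow_nonneg (hs0 i) _
      exact Finset.Ico_subset_Ico_right (by omega)
    have h8 : s (m ^ (d + 1) - j ^ (d + 1) + 1) ≤ s 0 := hsanti (Nat.zero_le _)
    have h9 := pow_lt_pow_left₀ (a := (1 - γ) * R - A -
        s (m ^ (d + 1) - j ^ (d + 1) + 1)) (b := (1 - γ / 2) * R -
        A - s (m ^ (d + 1) - j ^ (d + 1) + 1))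
        (by linarith) (by linarith) (Nat.succ_ne_zero d)
    exact lt_of_le_of_lt ((add_le_add le_rfl h7).trans h6) h9
  let κ : Type := {i : Fin k // (i : ℕ) < M}
  let b : κ → ℝ := fun q => r (q.1 : ℕ)
  have hb0 : ∀ q, 0 < b q := fun q => hrpos _ q.1.2
  have hopb : OPackIn d b (tri (d + 1) ((1 - γ / 2) * R)) := by
    have hf : Function.Injective
        (fun q : κ => (⟨(q.1 : ℕ), lt_min q.2 q.1.2⟩ : Fin (min M k))) := by
      intro q q' h
      exact Subtype.ext (Fin.ext (Fin.mk.inj_iff.1 h))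
    exact hop.comp hf
  have hfin := hrel κ {i : Fin k // ¬ (i : ℕ) < M} b (fun i => r (i.1 : ℕ)) R hR hb0
    (fun i => ⟨hrpos _ i.1.2, (hanti (by have := i.2; omega)).trans hsmall⟩) hopb
    (by
      have e0 : ∑ i ∈ Finset.range k, r i ^ (d + 1) = ∑ i : Fin k, r (i : ℕ) ^ (d + 1) :=
        (Fin.sum_univ_eq_sum_range (fun i => r i ^ (d + 1)) k).symm
      have e1 : ∑ i : Fin k, r (i : ℕ) ^ (d + 1) = (∑ q : κ, b q ^ (d + 1)) +
          ∑ i : {i : Fin k // ¬ (i : ℕ) < M}, r (i.1 : ℕ) ^ (d + 1) :=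
        (Fintype.sum_subtype_add_sum_subtype (fun i : Fin k => (i : ℕ) < M)
          (fun i => r (i : ℕ) ^ (d + 1))).symm
      rw [← e1, ← e0]
      exact hsum)
  let g : Fin k → κ ⊕ {i : Fin k // ¬ (i : ℕ) < M} := fun i =>
    if h : (i : ℕ) < M then Sum.inl ⟨i, h⟩ else Sum.inr ⟨i, h⟩
  have hgl : ∀ (i : Fin k) (h : (i : ℕ) < M), g i = Sum.inl ⟨i, h⟩ := fun i h => dif_pos h
  have hgr : ∀ (i : Fin k) (h : ¬ (i : ℕ) < M), g i = Sum.inr ⟨i, h⟩ := fun i h => dif_neg h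
  have hg : Function.Injective g := by
    intro i i' h
    by_cases hi : (i : ℕ) < M <;> by_cases hi' : (i' : ℕ) < M
    · rw [hgl i hi, hgl i' hi'] at h
      exact Subtype.ext_iff.1 (Sum.inl_injective h)
    · rw [hgl i hi, hgr i' hi'] at h
      exact (Sum.inl_ne_inr h).elim
    · rw [hgr i hi, hgl i' hi'] at h
      exact (Sum.inr_ne_inl h).elim
    · rw [hgr i hi, hgr i' hi'] at h
      exact Subtype.ext_iff.1 (Sum.inr_injective h)
  have hfin2 := Packs.comp_inj hfin g hg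
  have e4 : (fun i : Fin k => Sum.elim b
      (fun i : {i : Fin k // ¬ (i : ℕ) < M} => r (i.1 : ℕ)) (g i)) =
      fun i : Fin k => r i := by
    funext i
    by_cases hi : (i : ℕ) < M
    · rw [hgl i hi]
      rfl
    · rw [hgr i hi]
      rfl
  rw [e4] at hfin2
  exact hfin2

end Vale.Agent.P209.MM
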