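import Vale.Agent.P209.V.Final
import Vale.Agent.P209.V.X3

set_option linter.all false

namespace Vale.Agent.P209.V

open Vale.Agent.P209

theorem main2 :
    (∀ n : ℕ, 2 ≤ n → ∃ ε : ℝ, 0 < ε ∧ ∀ (k : ℕ) (R : ℝ) (r : Fin k → ℝ), 0 < R →
      (∀ i, 0 < r i ∧ r i ≤ ε * R) → (Packs (openBall n R) r ↔ ∑ i, r i ^ n < R ^ n)) ∧
    (∀ (n k : ℕ), 1 ≤ n → 1 ≤ k → k ≤ 2 ^ n → ∀ (R : ℝ) (r : Fin k → ℝ), 0 < R →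
      (∀ i, 0 < r i) → ∑ i, r i ^ n < R ^ n → (∀ i j, i < j → r i + r j < R) →
      Packs (openBall n R) r) ∧
    (∀ n : ℕ, 2 ≤ n → ∃ ε : ℝ, 0 < ε ∧ ∀ (k : ℕ) (R : ℝ) (r : Fin k → ℝ), 0 < R →
      (∀ i, 0 < r i) → ∑ i, r i ^ n < R ^ n → (∀ i j, i < j → r i + r j < R) →
      ∀ (i0 : Fin k) (B : Finset (Fin k)), (∀ i, r i ≤ r i0) →
      (B.card : ℝ) ≤ n + (ε * R / (R - r i0)) ^ (n - 1) →
      ∑ i with i ≠ i0 ∧ i ∉ B ∧ ε * (R - r i0) < r i, r i ^ n ≤ ε * (R ^ n - r i0 ^ n) →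
      Packs (openBall n R) r) ∧
    (∀ (n k : ℕ), 1 ≤ n → ∀ (R : ℝ) (r : Fin k → ℝ), 0 < R → (∀ i, 0 < r i) →
      2 ^ (n - 1) * ∑ i, r i ^ n < R ^ n → Packs (openBall n R) r) ∧
    (∀ n : ℕ, 2 ≤ n → ∀ γ : ℝ, 0 < γ → ∃ ε : ℝ, 0 < ε ∧ ∀ (k : ℕ) (R : ℝ) (r : Fin k → ℝ),
      0 < R → (∀ i, 0 < r i) → 2 ^ (n - 1) * ∑ i with ε * R < r i, r i ^ n ≤ (1 - γ) * R ^ n →
      ∑ i, r i ^ n < R ^ n → Packs (openBall n R) r) ∧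
    (∀ (n k N : ℕ) (R : ℝ) (r : ℕ → ℝ), 1 ≤ n → Antitone r → (∀ i, 0 ≤ r i) →
      (∀ i, i < k → 0 < r i) → r 0 < R → N = 2 ^ n - 1 →
      (∀ q, q * N + 1 < k → ∑ i ∈ Finset.range (q + 1), r (i * N) + r (q * N + 1) < R) →
      Packs (openBall n R) (fun i : Fin k => r i)) ∧
    (∀ n : ℕ, 2 ≤ n → ∀ γ : ℝ, 0 < γ → ∃ ε : ℝ, 0 < ε ∧
      ∀ (p m j M k K N : ℕ) (R A L : ℝ) (r s : ℕ → ℝ), 0 < R → j ≤ m → Antitone r →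
      (∀ i, 0 ≤ r i) → (∀ i, i < k → 0 < r i) → N = 2 ^ n - 1 → K = m ^ n - j ^ n + 1 →
      r 0 ≤ (1 - γ) * R →
      (∀ q, q < p → q * N + 1 < M →
        ∑ i ∈ Finset.range (q + 1), r (i * N) + r (q * N + 1) ≤ (1 - γ) * R) →
      (∀ i, s i = r (p * N + i)) → A = (1 - γ) * R - ∑ i ∈ Finset.range p, r (i * N) →
      L = max (s 0) (j * s 1) + ∑ q ∈ Finset.Ico j m, s (q ^ n - j ^ n + 1) →
      (p * N < M → L ≤ A ∧ (K < M - p * N →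
        L ^ n + ∑ i ∈ Finset.Ico (K + 1) (M - p * N), s i ^ n ≤ (A - s K) ^ n)) →
      r M ≤ ε * R → ∑ i ∈ Finset.range k, r i ^ n < R ^ n →
      Packs (openBall n R) (fun i : Fin k => r i)) ∧
    (∀ (n k : ℕ), 3 ≤ n → ∀ (R : ℝ) (r : Fin k → ℝ), 0 < R → (∀ i, 0 < r i) →
      ∑ i, r i ^ n < R ^ n → (∀ i j, i < j → r i + r j < R) → ∀ i0 : Fin k, (∀ i, r i ≤ r i0) →
      3 ^ n * ∑ i with i ≠ i0, r i ^ n ≤ R ^ n - r i0 ^ n → Packs (openBall n R) r) ∧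
    (∀ n : ℕ, 2 ≤ n → ∃ C q : ℝ, 0 < C ∧ 0 < q ∧ q < 1 ∧ ∀ k : ℕ,
      MeasureTheory.volume {r : Fin k → ℝ | ((∀ i, 0 < r i) ∧ ∑ i, r i ^ n < 1 ∧
        ∀ i j, i < j → r i + r j < 1) ∧ ¬ Packs (openBall n 1) r} ≤
      ENNReal.ofReal (C * q ^ k) * MeasureTheory.volume {r : Fin k → ℝ | (∀ i, 0 < r i) ∧
        ∑ i, r i ^ n < 1 ∧ ∀ i j, i < j → r i + r j < 1}) := by
  obtain ⟨hA, hB, hC, hD, hE, -, -, hH, hI⟩ := main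
  refine ⟨hA, hB, hC, hD, hE, ?_, ?_, hH, hI⟩
  · intro n k N R r hn hr hr0 hpos h0 hN hq
    subst hN
    exact Vale.Agent.P209.MM.packs_chain n k hn R r hr hr0 hpos h0 hq
  · intro n hn γ hγ
    obtain ⟨ε, hε, h⟩ := Vale.Agent.P209.MM.relative_chain n hn γ hγ
    refine ⟨ε, hε, ?_⟩
    intro p m j M k K N R A L r s hR hj hr hr0 hpos hN hK h0 hq hs hA2 hL htail hM hV
    obtain rfl : s = fun i => r (p * N + i) := funext hs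
    subst hN hK hA2 hL
    exact h p m j M k R r hj hr hr0 hpos hR h0 hq htail hM hV

end Vale.Agent.P209.V
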