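import Vale.Agent.P209.Strong.D1
import Vale.Agent.P209.Strong.H2b

set_option linter.all false

namespace Vale.Agent.P209.Strong

open MeasureTheory

/-! V1. `Fill` in the presence of finitely many given big balls. -/

/-- Every collection of bulk and tail balls can be added to the big balls `b`, as long as the
total volume is smaller than that of `Ω`. -/
def FB {n : ℕ} {κ : Type} [Fintype κ] (δ N : ℝ) (Ω : Set (Fin n → ℝ)) (b : κ → ℝ) : Prop :=
  ∀ (ι : Type) [Fintype ι] (r : ι → ℝ) (J : Finset ι), (∀ i, 0 < r i ∧ r i ≤ 1) →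
    (∀ i, i ∉ J → δ ≤ r i) → ∑ i ∈ J, r i ≤ N →
    ∑ p, b p ^ n / (n.factorial : ℝ) + ∑ i, r i ^ n / (n.factorial : ℝ) <
      (volume Ω).toReal → TPk Ω (Sum.elim b r)

/-! ### Helpers -/

/-- the map used to restrict to sub-collections -/
def v1_e {κ ι : Type} (P : κ → Prop) (Q : ι → Prop) :
    (x : κ ⊕ ι) → Sum.elim P Q x → {p // P p} ⊕ {i // Q i}
  | Sum.inl p, h => Sum.inl ⟨p, h⟩
  | Sum.inr i, h => Sum.inr ⟨i, h⟩

theorem v1_e_inj {κ ι : Type} (P : κ → Prop) (Q : ι → Prop) :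
    ∀ (x y : κ ⊕ ι) (hx : Sum.elim P Q x) (hy : Sum.elim P Q y),
      v1_e P Q x hx = v1_e P Q y hy → x = y := by
  intro x y hx hy h
  rcases x with p | i <;> rcases y with p' | i'
  · simp only [v1_e, Sum.inl.injEq] at h
    exact congrArg Sum.inl (congrArg Subtype.val h)
  · simp only [v1_e, reduceCtorEq] at h
  · simp only [v1_e, reduceCtorEq] at h
  · simp only [v1_e, Sum.inr.injEq] at h
    exact congrArg Sum.inr (congrArg Subtype.val h)

theorem v1_e_elim {κ ι : Type} (P : κ → Prop) (Q : ι → Prop) (b : κ → ℝ) (r : ι → ℝ) :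
    ∀ (x : κ ⊕ ι) (hx : Sum.elim P Q x),
      Sum.elim (fun p : {p // P p} => b p) (fun i : {i // Q i} => r i) (v1_e P Q x hx) =
        Sum.elim b r x := by
  intro x hx
  rcases x with p | i <;> rfl

/-- gluing two packings -/
theorem v1_union {n : ℕ} {κ ι : Type} {Ω₁ Ω₂ Ω : Set (Fin n → ℝ)} {b : κ → ℝ} {r : ι → ℝ}
    (P : κ → Prop) (Q : ι → Prop)
    (h₁ : TPk Ω₁ (Sum.elim (fun p : {p // P p} => b p) (fun i : {i // Q i} => r i)))
    (h₂ : TPk Ω₂ (Sum.elim (fun p : {p // ¬ P p} => b p) (fun i : {i // ¬ Q i} => r i)))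
    (hd : Disjoint Ω₁ Ω₂) (hs₁ : Ω₁ ⊆ Ω) (hs₂ : Ω₂ ⊆ Ω) : TPk Ω (Sum.elim b r) := by
  have hneg : ∀ x : κ ⊕ ι, ¬ Sum.elim P Q x → Sum.elim (fun p => ¬ P p) (fun i => ¬ Q i) x := by
    intro x hx
    rcases x with p | i
    · exact hx
    · exact hx
  refine TPk.union {x | Sum.elim P Q x} ?_ ?_ hd hs₁ hs₂
  · have h := h₁.comp_inj (fun x : ({x | Sum.elim P Q x} : Set (κ ⊕ ι)) => v1_e P Q x.1 x.2)
      (fun x y hxy => Subtype.ext (v1_e_inj P Q _ _ _ _ hxy))
    have e : (fun x : ({x | Sum.elim P Q x} : Set (κ ⊕ ι)) =>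
        Sum.elim (fun p : {p // P p} => b p) (fun i : {i // Q i} => r i)
          (v1_e P Q x.1 x.2)) = fun x => Sum.elim b r x.1 := by
      funext x
      exact v1_e_elim P Q b r x.1 x.2
    rw [e] at h
    exact h
  · have h := h₂.comp_inj (fun x : (({x | Sum.elim P Q x} : Set (κ ⊕ ι))ᶜ : Set (κ ⊕ ι)) =>
        v1_e (fun p => ¬ P p) (fun i => ¬ Q i) x.1 (hneg x.1 x.2))
      (fun x y hxy => Subtype.ext (v1_e_inj _ _ _ _ _ _ hxy))
    have e : (fun x : (({x | Sum.elim P Q x} : Set (κ ⊕ ι))ᶜ : Set (κ ⊕ ι)) =>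
        Sum.elim (fun p : {p // ¬ P p} => b p) (fun i : {i // ¬ Q i} => r i)
          (v1_e (fun p => ¬ P p) (fun i => ¬ Q i) x.1 (hneg x.1 x.2))) =
        fun x => Sum.elim b r x.1 := by
      funext x
      exact v1_e_elim (fun p => ¬ P p) (fun i => ¬ Q i) b r x.1 (hneg x.1 x.2)
    rw [e] at h
    exact h

/-- `FB` for a subset of the small balls. -/
theorem v1_restrict {n : ℕ} {κ : Type} [Fintype κ] {δ N : ℝ} {Ω : Set (Fin n → ℝ)} {b : κ → ℝ}
    (h : FB δ N Ω b) {ι : Type} [Fintype ι] (r : ι → ℝ) (J : Finset ι)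
    (hr : ∀ i, 0 < r i ∧ r i ≤ 1) (hJ : ∀ i, i ∉ J → δ ≤ r i) (hN : ∑ i ∈ J, r i ≤ N)
    (S : Finset ι) (Q : ι → Prop) (hQ : ∀ i, i ∈ S ↔ Q i) {β : ℝ}
    (hβ : ∑ p, b p ^ n / (n.factorial : ℝ) = β)
    (hv : β + ∑ i ∈ S, r i ^ n / (n.factorial : ℝ) < (volume Ω).toReal) :
    TPk Ω (Sum.elim b (fun i : {i // Q i} => r i)) := by
  classical
  haveI : Fintype {i // Q i} := Fintype.subtype S hQ
  refine h {i // Q i} (fun i : {i // Q i} => r i)
    (Finset.univ.filter fun i : {i // Q i} => (i : ι) ∈ J)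
    (fun i => hr i) (fun i hi => hJ i (by simpa using hi)) ?_ ?_
  · refine le_trans ?_ hN
    have e : ∑ i ∈ Finset.univ.filter (fun i : {i // Q i} => (i : ι) ∈ J), r i =
        ∑ i ∈ (Finset.univ.filter fun i : {i // Q i} => (i : ι) ∈ J).map
          (Function.Embedding.subtype Q), r i := by
      rw [Finset.sum_map]
      rfl
    rw [e]
    refine Finset.sum_le_sum_of_subset_of_nonneg ?_ fun i _ _ => (hr i).1.le
    intro i hi
    simp only [Finset.mem_map, Finset.mem_filter, Finset.mem_univ, true_and] at hi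
    obtain ⟨a, ha, rfl⟩ := hi
    exact ha
  · refine lt_of_eq_of_lt ?_ hv
    rw [hβ]
    congr 1
    exact (Finset.sum_subtype S hQ (fun i => r i ^ n / (n.factorial : ℝ))).symm

theorem v1_null {n : ℕ} (j : Fin n) (x : ℝ) : volume {a : Fin n → ℝ | a j = x} = 0 := by
  have h := volume_affine_zero (Pi.single j (1 : ℝ))
    (by
      intro h0
      have := congrFun h0 j
      simp at this) x
  have e : {a : Fin n → ℝ | ∑ i, (Pi.single j (1 : ℝ) : Fin n → ℝ) i * a i = x} =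
      {a : Fin n → ℝ | a j = x} := by
    ext a
    simp [Pi.single_apply]
  rw [e] at h
  exact h

/-- no big balls -/
theorem FB.of_Fill {n : ℕ} {κ : Type} [Fintype κ] [IsEmpty κ] {δ N : ℝ} {Ω : Set (Fin n → ℝ)}
    (h : Fill δ N Ω) (b : κ → ℝ) : FB δ N Ω b := by
  intro ι _ r J hr hJ hN hlt
  have h0 : ∑ p : κ, b p ^ n / (n.factorial : ℝ) = 0 := by
    rw [Finset.univ_eq_empty, Finset.sum_empty]
  rw [h0, zero_add] at hlt
  have h1 : TPk Ω r := h ι r J hr hJ hN hlt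
  have h2 := h1.comp_inj (fun x : κ ⊕ ι => Sum.elim (fun p => isEmptyElim p) id x) (by
    intro x y hxy
    rcases x with p | i
    · exact isEmptyElim p
    · rcases y with p' | i'
      · exact isEmptyElim p'
      · exact congrArg Sum.inr hxy)
  have e : (fun x : κ ⊕ ι => r (Sum.elim (fun p => isEmptyElim p) id x)) = Sum.elim b r := by
    funext x
    rcases x with p | i
    · exact isEmptyElim p
    · rfl
  rw [e] at h2
  exact h2

/-- reindexing the big balls -/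
theorem FB.congr {n : ℕ} {κ κ' : Type} [Fintype κ] [Fintype κ'] {δ N : ℝ}
    {Ω : Set (Fin n → ℝ)} {b : κ → ℝ} (e : κ' ≃ κ) (h : FB δ N Ω (fun p => b (e p))) :
    FB δ N Ω b := by
  intro ι _ r J hr hJ hN hlt
  have h0 : ∑ p : κ', b (e p) ^ n / (n.factorial : ℝ) = ∑ p : κ, b p ^ n / (n.factorial : ℝ) :=
    Equiv.sum_comp e (fun p => b p ^ n / (n.factorial : ℝ))
  have h1 : TPk Ω (Sum.elim (fun p => b (e p)) r) := h ι r J hr hJ hN (by rw [h0]; exact hlt)
  have h2 := h1.comp_inj (fun x : κ ⊕ ι => Sum.map e.symm id x)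
    (Function.Injective.sumMap e.symm.injective Function.injective_id)
  have e2 : (fun x : κ ⊕ ι => Sum.elim (fun p => b (e p)) r (Sum.map e.symm id x)) =
      Sum.elim b r := by
    funext x
    rcases x with p | i
    · show b (e (e.symm p)) = b p
      rw [Equiv.apply_symm_apply]
    · rfl
  rw [e2] at h2
  exact h2

/-- `FB` only depends on the set up to adding a null set. -/
theorem FB.of_subset {n : ℕ} {κ : Type} [Fintype κ] {δ N : ℝ} {Ω Ω' : Set (Fin n → ℝ)} {b : κ → ℝ}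
    (h : FB δ N Ω b) (hs : Ω ⊆ Ω') (hv : volume Ω' ≤ volume Ω) (hf : volume Ω' ≠ ⊤) :
    FB δ N Ω' b := by
  intro ι _ r J hr hJ hN hlt
  have h1 : volume Ω ≠ ⊤ := ne_top_of_le_ne_top hf (measure_mono hs)
  refine (h ι r J hr hJ hN (hlt.trans_le ?_)).mono hs
  exact ENNReal.toReal_mono h1 hv

/-- Splitting lemma with a movable wall; the big balls in `K` go to `U`, the other ones to `V`. -/
theorem FB.split {n : ℕ} (hn : 1 ≤ n) {δ N : ℝ} (hδ1 : δ ≤ 1) {κ : Type} [Fintype κ]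
    [DecidableEq κ] (b : κ → ℝ) (K : Finset κ) {Ω : Set (Fin n → ℝ)}
    (hfin : volume Ω ≠ ⊤) (U V : ℝ → Set (Fin n → ℝ)) {c₀ c₁ : ℝ} (hc : c₀ ≤ c₁)
    (hU : ∀ c, c₀ ≤ c → c ≤ c₁ → U c ⊆ Ω) (hV : ∀ c, c₀ ≤ c → c ≤ c₁ → V c ⊆ Ω)
    (hd : ∀ c, c₀ ≤ c → c ≤ c₁ → Disjoint (U c) (V c))
    (hvol : ∀ c, c₀ ≤ c → c ≤ c₁ →
      (volume Ω).toReal ≤ (volume (U c)).toReal + (volume (V c)).toReal)
    (hcont : ContinuousOn (fun c => (volume (U c)).toReal) (Set.Icc c₀ c₁))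
    (hbig : (volume (U c₀)).toReal + 1 / (n.factorial : ℝ) < (volume (U c₁)).toReal)
    (hbU : ∑ p ∈ K, b p ^ n / (n.factorial : ℝ) < (volume (U c₁)).toReal)
    (hbV : ∑ p ∈ Kᶜ, b p ^ n / (n.factorial : ℝ) < (volume (V c₁)).toReal)
    (hFU : ∀ c, c₀ ≤ c → c ≤ c₁ → FB δ N (U c) (fun p : {p // p ∈ K} => b p))
    (hFV : ∀ c, c₀ ≤ c → c ≤ c₁ → FB δ N (V c) (fun p : {p // p ∉ K} => b p)) :
    FB δ N Ω b := by
  classical
  intro ι _ r J hr hJ hN hlt
  set w : ι → ℝ := fun i => r i ^ n / (n.factorial : ℝ) with hw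
  set β₁ : ℝ := ∑ p ∈ K, b p ^ n / (n.factorial : ℝ) with hβ₁
  set β₂ : ℝ := ∑ p ∈ Kᶜ, b p ^ n / (n.factorial : ℝ) with hβ₂
  have hβ : ∑ p, b p ^ n / (n.factorial : ℝ) = β₁ + β₂ :=
    (Finset.sum_add_sum_compl K fun p => b p ^ n / (n.factorial : ℝ)).symm
  have hs1 : ∑ p : {p // p ∈ K}, b p ^ n / (n.factorial : ℝ) = β₁ :=
    (Finset.sum_subtype K (fun _ => Iff.rfl) (fun p => b p ^ n / (n.factorial : ℝ))).symm
  have hs2 : ∑ p : {p // p ∉ K}, b p ^ n / (n.factorial : ℝ) = β₂ :=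
    (Finset.sum_subtype Kᶜ (fun _ => Finset.mem_compl)
      (fun p => b p ^ n / (n.factorial : ℝ))).symm
  rw [hβ] at hlt
  have hw0 : ∀ i, 0 ≤ w i := fun i => by
    have := (hr i).1
    positivity
  have hw1 : ∀ i, w i ≤ 1 / (n.factorial : ℝ) := fun i =>
    div_le_div_of_nonneg_right (pow_le_one₀ (hr i).1.le (hr i).2) (by positivity)
  have hfac : (0 : ℝ) < 1 / (n.factorial : ℝ) := by positivity
  have hU0 : 0 ≤ (volume (U c₀)).toReal := ENNReal.toReal_nonneg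
  have key : ∀ (c : ℝ) (S : Finset ι), c₀ ≤ c → c ≤ c₁ →
      β₁ + ∑ i ∈ S, w i < (volume (U c)).toReal →
      β₂ + ∑ i ∈ Sᶜ, w i < (volume (V c)).toReal → TPk Ω (Sum.elim b r) := by
    intro c S hc0 hc1 h1 h2
    exact v1_union (fun p => p ∈ K) (fun i => i ∈ S)
      (v1_restrict (hFU c hc0 hc1) r J hr hJ hN S (fun i => i ∈ S) (fun _ => Iff.rfl) hs1 h1)
      (v1_restrict (hFV c hc0 hc1) r J hr hJ hN Sᶜ (fun i => i ∉ S) (fun _ => Finset.mem_compl)
        hs2 h2)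
      (hd c hc0 hc1) (hU c hc0 hc1) (hV c hc0 hc1)
  by_cases hA : β₁ + ∑ i, w i < (volume (U c₁)).toReal
  · refine key c₁ Finset.univ hc le_rfl hA ?_
    rw [Finset.compl_univ, Finset.sum_empty, add_zero]
    exact hbV
  rw [not_lt] at hA
  obtain ⟨S, hS, hmax⟩ := Finset.exists_max_image
    (Finset.univ.filter fun S : Finset ι => β₁ + ∑ i ∈ S, w i < (volume (U c₁)).toReal)
    Finset.card
    ⟨∅, by
      simp only [Finset.mem_filter, Finset.mem_univ, true_and, Finset.sum_empty, add_zero]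
      exact hbU⟩
  simp only [Finset.mem_filter, Finset.mem_univ, true_and] at hS hmax
  obtain ⟨i, hi⟩ : ∃ i, i ∉ S := by
    by_contra hcon
    push Not at hcon
    rw [Finset.eq_univ_iff_forall.2 hcon] at hS
    linarith
  have hi2 : (volume (U c₁)).toReal ≤ β₁ + (w i + ∑ i ∈ S, w i) := by
    rw [← Finset.sum_insert hi]
    by_contra hcon
    rw [not_le] at hcon
    have := hmax _ hcon
    rw [Finset.card_insert_of_notMem hi] at this
    omega
  have hlow : (volume (U c₀)).toReal < β₁ + ∑ i ∈ S, w i := by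
    have := hw1 i
    linarith
  have hsplit : ∑ i ∈ S, w i + ∑ i ∈ Sᶜ, w i = ∑ i, w i := Finset.sum_add_sum_compl S w
  have hlt' : β₁ + β₂ + ∑ i, w i < (volume Ω).toReal := hlt
  set θ : ℝ := min ((volume Ω).toReal - (β₁ + β₂ + ∑ i, w i))
    ((volume (U c₁)).toReal - (β₁ + ∑ i ∈ S, w i)) / 2 with hθ
  have hm : 0 < min ((volume Ω).toReal - (β₁ + β₂ + ∑ i, w i))
      ((volume (U c₁)).toReal - (β₁ + ∑ i ∈ S, w i)) :=
    lt_min (sub_pos.2 hlt') (sub_pos.2 hS)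
  have hθ0 : 0 < θ := by positivity
  have hθ1 : θ < (volume Ω).toReal - (β₁ + β₂ + ∑ i, w i) := by
    have := min_le_left ((volume Ω).toReal - (β₁ + β₂ + ∑ i, w i))
      ((volume (U c₁)).toReal - (β₁ + ∑ i ∈ S, w i))
    rw [hθ]
    linarith
  have hθ2 : θ < (volume (U c₁)).toReal - (β₁ + ∑ i ∈ S, w i) := by
    have := min_le_right ((volume Ω).toReal - (β₁ + β₂ + ∑ i, w i))
      ((volume (U c₁)).toReal - (β₁ + ∑ i ∈ S, w i))
    rw [hθ]
    linarith
  obtain ⟨c, ⟨hc0, hc1⟩, hcv⟩ := intermediate_value_Icc hc hcont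
    (show β₁ + ∑ i ∈ S, w i + θ ∈ Set.Icc (volume (U c₀)).toReal (volume (U c₁)).toReal from
      ⟨by linarith, by linarith⟩)
  simp only at hcv
  refine key c S hc0 hc1 ?_ ?_
  · rw [hcv]
    linarith
  · have := hvol c hc0 hc1
    linarith

/-- Splitting along a coordinate hyperplane. -/
theorem FB.cut {n : ℕ} (hn : 1 ≤ n) {δ N : ℝ} (hδ1 : δ ≤ 1) {κ : Type} [Fintype κ]
    [DecidableEq κ] (b : κ → ℝ) (K : Finset κ) {Ω : Set (Fin n → ℝ)}
    (hfin : volume Ω ≠ ⊤) (hΩ : MeasurableSet Ω) (j : Fin n) {x0 x1 : ℝ} (hx : x0 ≤ x1)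
    (hmid : 1 / (n.factorial : ℝ) < (volume (Ω ∩ {a | x0 < a j ∧ a j < x1})).toReal)
    (hbU : ∑ p ∈ K, b p ^ n / (n.factorial : ℝ) < (volume (Ω ∩ {a | a j < x1})).toReal)
    (hbV : ∑ p ∈ Kᶜ, b p ^ n / (n.factorial : ℝ) < (volume (Ω ∩ {a | x1 < a j})).toReal)
    (hFU : ∀ x, x0 ≤ x → x ≤ x1 →
      FB δ N (Ω ∩ {a | a j < x}) (fun p : {p // p ∈ K} => b p))
    (hFV : ∀ x, x0 ≤ x → x ≤ x1 →
      FB δ N (Ω ∩ {a | x < a j}) (fun p : {p // p ∉ K} => b p)) :
    FB δ N Ω b := by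
  have hproj : Measurable fun a : Fin n → ℝ => a j := measurable_pi_apply _
  have hfs : ∀ S : Set (Fin n → ℝ), volume (Ω ∩ S) ≠ ⊤ := fun S =>
    ne_top_of_le_ne_top hfin (measure_mono Set.inter_subset_left)
  refine FB.split hn hδ1 b K hfin (fun x => Ω ∩ {a | a j < x})
    (fun x => Ω ∩ {a | x < a j}) hx (fun _ _ _ => Set.inter_subset_left)
    (fun _ _ _ => Set.inter_subset_left) ?_ ?_ ?_ ?_ hbU hbV hFU hFV
  · intro x _ _
    rw [Set.disjoint_left]
    rintro a ⟨_, h1⟩ ⟨_, h2⟩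
    have h3 : a j < x := h1
    have h4 : x < a j := h2
    exact lt_asymm h3 h4
  · intro x _ _
    have h1 : volume Ω ≤ volume (Ω ∩ {a | a j < x}) + volume (Ω ∩ {a | x < a j}) := by
      calc volume Ω ≤ volume (((Ω ∩ {a | a j < x}) ∪
            (Ω ∩ {a | x < a j})) ∪ {a : Fin n → ℝ | a j = x}) := by
            refine measure_mono ?_
            intro a ha
            rcases lt_trichotomy (a j) x with h | h | h
            · exact Or.inl (Or.inl ⟨ha, h⟩)
            · exact Or.inr h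
            · exact Or.inl (Or.inr ⟨ha, h⟩)
        _ ≤ volume ((Ω ∩ {a | a j < x}) ∪ (Ω ∩ {a | x < a j})) +
            volume {a : Fin n → ℝ | a j = x} := measure_union_le _ _
        _ = volume ((Ω ∩ {a | a j < x}) ∪ (Ω ∩ {a | x < a j})) := by
            rw [v1_null, add_zero]
        _ ≤ _ := measure_union_le _ _
    rw [← ENNReal.toReal_add (hfs _) (hfs _)]
    exact ENNReal.toReal_mono (ENNReal.add_ne_top.2 ⟨hfs _, hfs _⟩) h1
  · have h1 := volume_lt_continuous hfin hΩ (f := fun a : Fin n → ℝ => a j)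
      (g := fun _ => (1 : ℝ)) hproj measurable_const (fun _ _ => one_pos) (fun x =>
        measure_mono_null (Set.inter_subset_right.trans (fun a ha => by
          have h2 : a j = x * 1 := ha
          rw [mul_one] at h2
          exact h2)) (v1_null j x))
    simp only [mul_one] at h1
    exact h1.continuousOn
  · have hms : MeasurableSet (Ω ∩ {a | x0 < a j ∧ a j < x1}) :=
      hΩ.inter ((measurableSet_lt measurable_const hproj).inter
        (measurableSet_lt hproj measurable_const))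
    have hdis : Disjoint (Ω ∩ {a | a j < x0}) (Ω ∩ {a | x0 < a j ∧ a j < x1}) := by
      rw [Set.disjoint_left]
      rintro a ⟨_, h1⟩ ⟨_, h2⟩
      have h3 : a j < x0 := h1
      have h4 : x0 < a j := h2.1
      exact lt_asymm h3 h4
    have h1 : volume (Ω ∩ {a | a j < x0}) + volume (Ω ∩ {a | x0 < a j ∧ a j < x1}) ≤
        volume (Ω ∩ {a | a j < x1}) := by
      rw [← measure_union hdis hms]
      refine measure_mono ?_
      rintro a (⟨ha, h2⟩ | ⟨ha, h2⟩)
      · exact ⟨ha, lt_of_lt_of_le h2 hx⟩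
      · exact ⟨ha, h2.2⟩
    have h2 := ENNReal.toReal_mono (hfs _) h1
    rw [ENNReal.toReal_add (hfs _) (hfs _)] at h2
    show (volume (Ω ∩ {a | a j < x0})).toReal + _ < (volume (Ω ∩ {a | a j < x1})).toReal
    linarith only [h2, hmid]

end Vale.Agent.P209.Strong
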