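import Vale.Agent.P209.V.V1
import Vale.Agent.P209.Strong.G7
import Vale.Agent.P209.Strong.H2a

set_option linter.all false

namespace Vale.Agent.P209.Strong

open MeasureTheory

/-! V2. Boxes with at most one big ball. -/

/-- the open box -/
def bx {n : ℕ} (x y : Fin n → ℝ) : Set (Fin n → ℝ) := {a | ∀ j, x j < a j ∧ a j < y j}

theorem v2_bx_eq {n : ℕ} (x y : Fin n → ℝ) :
    bx x y = Set.pi Set.univ fun j => Set.Ioo (x j) (y j) := by
  ext a
  constructor
  · intro h j _
    exact h j
  · intro h j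
    exact h j (Set.mem_univ j)

theorem bx_isOpen {n : ℕ} (x y : Fin n → ℝ) : IsOpen (bx x y) := by
  rw [v2_bx_eq]
  exact isOpen_set_pi Set.finite_univ fun j _ => isOpen_Ioo

theorem bx_volume {n : ℕ} (x y : Fin n → ℝ) (h : ∀ j, x j ≤ y j) :
    (volume (bx x y)).toReal = ∏ j, (y j - x j) ∧ volume (bx x y) ≠ ⊤ := by
  rw [v2_bx_eq]
  refine ⟨Real.volume_pi_Ioo_toReal h, ?_⟩
  rw [Real.volume_pi_Ioo]
  exact ENNReal.prod_ne_top fun j _ => ENNReal.ofReal_ne_top

/-- sum of the coordinates before `j` -/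
noncomputable def v2_ps {n : ℕ} (x : Fin n → ℝ) (j : ℕ) (a : Fin n → ℝ) : ℝ :=
  ∑ i : Fin n, if (i : ℕ) < j then a i - x i else 0

/-- the lower walls of the box minus the corner simplex -/
noncomputable def v2_l {n : ℕ} (x : Fin n → ℝ) (s : ℝ) (j : Fin n) (a : Fin n → ℝ) : ℝ :=
  x j + if (j : ℕ) + 1 = n then max 0 (s - v2_ps x j a) else 0

theorem v2_l_ge {n : ℕ} (x : Fin n → ℝ) (s : ℝ) (j : Fin n) (a : Fin n → ℝ) :
    x j ≤ v2_l x s j a := by
  unfold v2_l
  have : 0 ≤ if (j : ℕ) + 1 = n then max 0 (s - v2_ps x j a) else 0 := by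
    split_ifs
    · exact le_max_left _ _
    · exact le_rfl
  linarith

theorem v2_walls {n : ℕ} (x : Fin n → ℝ) (s : ℝ) : Walls (n : ℝ) (v2_l x s) := by
  constructor
  · intro j y y' h
    have h1 : v2_ps x j y = v2_ps x j y' := by
      refine Finset.sum_congr rfl fun i _ => ?_
      by_cases hi : (i : ℕ) < (j : ℕ)
      · rw [if_pos hi, if_pos hi, h i hi]
      · rw [if_neg hi, if_neg hi]
    show v2_l x s j y = v2_l x s j y'
    unfold v2_l
    rw [h1]
  · intro j y y'
    have h1 : |v2_ps x j y - v2_ps x j y'| ≤ n * dist y y' := by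
      unfold v2_ps
      rw [← Finset.sum_sub_distrib]
      refine (Finset.abs_sum_le_sum_abs _ _).trans ?_
      have h2 : ∀ i : Fin n, |(if (i : ℕ) < (j : ℕ) then y i - x i else 0) -
          (if (i : ℕ) < (j : ℕ) then y' i - x i else 0)| ≤ dist y y' := by
        intro i
        split_ifs
        · have h3 := dist_le_pi_dist y y' i
          rw [Real.dist_eq] at h3
          have h4 : y i - x i - (y' i - x i) = y i - y' i := by ring
          rw [h4]
          exact h3
        · rw [sub_self, abs_zero]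
          exact dist_nonneg
      refine (Finset.sum_le_sum fun i _ => h2 i).trans ?_
      rw [Finset.sum_const, Finset.card_univ, Fintype.card_fin, nsmul_eq_mul]
    unfold v2_l
    rw [add_sub_add_left_eq_sub]
    split_ifs
    · refine (abs_max_sub_max_le_max _ _ _ _).trans ?_
      refine max_le ?_ ?_
      · rw [sub_self, abs_zero]
        positivity
      · have h5 : s - v2_ps x j y - (s - v2_ps x j y') = -(v2_ps x j y - v2_ps x j y') := by ring
        rw [h5, abs_neg]
        exact h1
    · rw [sub_self, abs_zero]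
      positivity

theorem v2_const_walls {n : ℕ} (L : ℝ) (hL : 0 ≤ L) (y : Fin n → ℝ) :
    Walls L (fun j (_ : Fin n → ℝ) => y j) := by
  constructor
  · intro j a a' _
    rfl
  · intro j a a'
    rw [sub_self, abs_zero]
    exact mul_nonneg hL dist_nonneg

/-- a total sum in terms of the sum before the last coordinate -/
theorem v2_sum {n : ℕ} (x : Fin n → ℝ) (j : Fin n) (hj : (j : ℕ) + 1 = n) (a : Fin n → ℝ) :
    ∑ i, (a i - x i) = v2_ps x j a + (a j - x j) := by
  unfold v2_ps
  rw [← Finset.add_sum_erase Finset.univ _ (Finset.mem_univ j),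
    ← Finset.add_sum_erase Finset.univ (fun i : Fin n => if (i : ℕ) < (j : ℕ) then a i - x i else 0)
      (Finset.mem_univ j), if_neg (lt_irrefl _), zero_add, add_comm]
  congr 1
  refine Finset.sum_congr rfl fun i hi => ?_
  have h1 : i ≠ j := Finset.ne_of_mem_erase hi
  have h2 : (i : ℕ) ≠ (j : ℕ) := fun h => h1 (Fin.ext h)
  rw [if_pos]
  have := i.2
  omega

/-- the open corner simplex -/
def v2_C {n : ℕ} (x : Fin n → ℝ) (s : ℝ) : Set (Fin n → ℝ) :=
  {a | (∀ j, x j < a j) ∧ ∑ j, (a j - x j) < s}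

theorem v2_C_open {n : ℕ} (x : Fin n → ℝ) (s : ℝ) : IsOpen (v2_C x s) := by
  have h1 : v2_C x s = (⋂ j, {a : Fin n → ℝ | x j < a j}) ∩ {a | ∑ j, (a j - x j) < s} := by
    ext a
    simp [v2_C]
  rw [h1]
  refine (isOpen_iInter_of_finite fun j => isOpen_lt continuous_const (continuous_apply j)).inter ?_
  exact isOpen_lt (by fun_prop) continuous_const

theorem v2_emb {n : ℕ} (x : Fin n → ℝ) {b s : ℝ} (hb : 0 ≤ b) (hbs : b < s) :
    ∃ f, TEmb b f (v2_C x s) := by
  obtain ⟨h1, h2⟩ := h2b_tau (n := n) hbs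
  refine h2b_emb hb (fun j => x j + (s - b) / (2 * n + 2)) (v2_C_open x s) fun a ha hs => ?_
  refine ⟨fun j => ?_, ?_⟩
  · have := ha j
    linarith
  · rw [Finset.sum_add_distrib, Finset.sum_const, Finset.card_univ, Fintype.card_fin,
      nsmul_eq_mul] at hs
    rw [Finset.sum_sub_distrib]
    linarith

theorem v2_volume {n : ℕ} (hn : 1 ≤ n) (x y : Fin n → ℝ) (s : ℝ) (hs : 0 ≤ s) :
    volume (bx x y) ≤ volume (boxSet (v2_l x s) (fun j _ => y j)) +
      ENNReal.ofReal (s ^ n / (n.factorial : ℝ)) := by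
  have hcov : bx x y ⊆ boxSet (v2_l x s) (fun j _ => y j) ∪
      (fun a : Fin n → ℝ => a - x) ⁻¹' (h2aK n s) := by
    intro a ha
    by_cases h : ∑ j, (a j - x j) ≤ s
    · right
      refine ⟨fun j => ?_, ?_⟩
      · show 0 ≤ a j - x j
        have := (ha j).1
        linarith
      · exact h
    · left
      push Not at h
      intro j
      refine ⟨?_, (ha j).2⟩
      have h1 := (ha j).1
      unfold v2_l
      split_ifs with hj
      · rw [v2_sum x j hj a] at h
        have h2 : max 0 (s - v2_ps x j a) < a j - x j := by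
          apply max_lt
          · linarith
          · linarith
        linarith
      · linarith
  refine (measure_mono hcov).trans ((measure_union_le _ _).trans ?_)
  gcongr
  have h1 : volume ((fun a : Fin n → ℝ => a - x) ⁻¹' (h2aK n s)) = volume (h2aK n s) := by
    simp only [sub_eq_add_neg]
    exact measure_preimage_add_right volume (-x) (h2aK n s)
  rw [h1]
  exact h2aK_volume n hn s hs

theorem v2_choose {n : ℕ} {b w V v : ℝ} (hbw : b < w) (h : b ^ n / (n.factorial : ℝ) + V < v) :
    ∃ s, b < s ∧ s < w ∧ s ^ n / (n.factorial : ℝ) + V < v := by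
  have e1 : ∀ᶠ s : ℝ in nhdsWithin b (Set.Ioi b), s < w :=
    nhdsWithin_le_nhds (Iio_mem_nhds hbw)
  have hc : Continuous fun s : ℝ => s ^ n / (n.factorial : ℝ) + V := by fun_prop
  have e2 : ∀ᶠ s : ℝ in nhdsWithin b (Set.Ioi b), s ^ n / (n.factorial : ℝ) + V < v :=
    nhdsWithin_le_nhds (hc.continuousAt.eventually_lt continuousAt_const h)
  have e3 : ∀ᶠ s : ℝ in nhdsWithin b (Set.Ioi b), b < s := eventually_mem_nhdsWithin
  obtain ⟨s, h1, h2, h3⟩ := (e1.and (e2.and e3)).exists
  exact ⟨s, h3, h1, h2⟩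

/-- A box whose last coordinate is long, with at most one big ball. -/
theorem cell_FB (n : ℕ) (hn : 2 ≤ n) (δ N : ℝ) (hδ : 0 < δ) (hδ1 : δ ≤ 1) (hN : 0 ≤ N) :
    ∃ H0 : ℝ, 0 < H0 ∧ ∀ (w : ℝ) (x y : Fin n → ℝ), H0 ≤ w → (∀ j, w ≤ y j - x j) →
      (∀ j : Fin n, (j : ℕ) + 1 = n → 2 * w ≤ y j - x j) →
      ∀ (κ : Type) [Fintype κ] (b : κ → ℝ), Fintype.card κ ≤ 1 → (∀ p, 0 < b p ∧ b p < w) →
        FB δ N (bx x y) b := by
  obtain ⟨R0, hR0, H⟩ := CA_all n hn (1 / 2) n δ N (by norm_num) (Nat.cast_nonneg n) hδ hδ1 hN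
  refine ⟨R0, hR0, fun w x y hw hxy hlast κ _ b hκ hb => ?_⟩
  have hw0 : 0 < w := hR0.trans_le hw
  rcases isEmpty_or_nonempty κ with hE | hne
  · -- no big ball
    refine FB.of_Fill ?_ b
    have h1 : bx x y = boxSet (fun j _ => x j) (fun j _ => y j) := rfl
    rw [h1]
    refine H (fun j => y j - x j) (fun j => hw.trans (hxy j)) _ _
      (v2_const_walls _ (Nat.cast_nonneg n) x) (v2_const_walls _ (Nat.cast_nonneg n) y)
      fun j a _ => ⟨?_, le_rfl⟩
    have := hxy j
    linarith
  · obtain ⟨p0⟩ := hne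
    have hsub : ∀ q : κ, q = p0 := by
      intro q
      have := Fintype.card_le_one_iff.1 hκ q p0
      exact this
    intro ι _ r J hr hJ hJN hvol
    have hsum : ∑ p, b p ^ n / (n.factorial : ℝ) = b p0 ^ n / (n.factorial : ℝ) := by
      rw [Finset.sum_eq_single p0]
      · intro q _ hq
        exact absurd (hsub q) hq
      · intro h
        exact absurd (Finset.mem_univ _) h
    rw [hsum] at hvol
    obtain ⟨s, hbs, hsw, hs⟩ := v2_choose (hb p0).2 hvol
    have hs0 : 0 < s := (hb p0).1.trans hbs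
    set Ω0 : Set (Fin n → ℝ) := boxSet (v2_l x s) (fun j _ => y j) with hΩ0
    have hfill : Fill δ N Ω0 := by
      refine H (fun j => y j - x j) (fun j => hw.trans (hxy j)) _ _
        (v2_walls x s) (v2_const_walls _ (Nat.cast_nonneg n) y) fun j a hj => ?_
      have hge := v2_l_ge x s j a
      refine ⟨?_, by linarith⟩
      have hxyj := hxy j
      unfold v2_l
      split_ifs with hjn
      · have h1 : 0 ≤ v2_ps x j a := by
          refine Finset.sum_nonneg fun i _ => ?_
          split_ifs with hi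
          · have h2 := (hj i hi).1
            have h3 := v2_l_ge x s i a
            linarith
          · exact le_rfl
        have h2 : max 0 (s - v2_ps x j a) ≤ s := max_le hs0.le (by linarith)
        have h3 := hlast j hjn
        linarith
      · linarith
    have hΩsub : Ω0 ⊆ bx x y := by
      intro a ha j
      exact ⟨(v2_l_ge x s j a).trans_lt (ha j).1, (ha j).2⟩
    have hCsub : v2_C x s ⊆ bx x y := by
      intro a ha j
      refine ⟨ha.1 j, ?_⟩
      have h1 : a j - x j ≤ ∑ i, (a i - x i) :=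
        Finset.single_le_sum (f := fun i => a i - x i)
          (fun i _ => by have := ha.1 i; linarith) (Finset.mem_univ j)
      have h2 := ha.2
      have h3 := hxy j
      linarith
    have hdis : Disjoint (v2_C x s) Ω0 := by
      rw [Set.disjoint_left]
      intro a haC haΩ
      have hjn : ((⟨n - 1, by omega⟩ : Fin n) : ℕ) + 1 = n := by
        show n - 1 + 1 = n
        omega
      have h1 := (haΩ ⟨n - 1, by omega⟩).1
      have h2 := haC.2
      rw [v2_sum x ⟨n - 1, by omega⟩ hjn a] at h2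
      unfold v2_l at h1
      rw [if_pos hjn] at h1
      have h3 := le_max_right 0 (s - v2_ps x ((⟨n - 1, by omega⟩ : Fin n) : ℕ) a)
      linarith
    have hfinbx : volume (bx x y) ≠ ⊤ :=
      (bx_volume x y fun j => by have := hxy j; linarith).2
    have hfinΩ : volume Ω0 ≠ ⊤ := ne_top_of_le_ne_top hfinbx (measure_mono hΩsub)
    have hv : (volume (bx x y)).toReal ≤ (volume Ω0).toReal + s ^ n / (n.factorial : ℝ) := by
      have h1 := v2_volume (by omega) x y s hs0.le
      have h2 := ENNReal.toReal_mono (ENNReal.add_ne_top.2 ⟨hfinΩ, ENNReal.ofReal_ne_top⟩) h1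
      rw [ENNReal.toReal_add hfinΩ ENNReal.ofReal_ne_top, ENNReal.toReal_ofReal (by positivity)]
        at h2
      exact h2
    have hTPk : TPk Ω0 r := hfill ι r J hr hJ hJN (by linarith)
    refine TPk.glue (bx x y) Ω0 (fun _ : κ => v2_C x s) b r (fun p => ?_) hTPk (fun _ => hCsub)
      hΩsub (fun p q hpq => ?_) (fun _ => hdis)
    · rw [hsub p]
      exact v2_emb x (hb p0).1.le hbs
    · exact absurd ((hsub p).trans (hsub q).symm) hpq

end Vale.Agent.P209.Strong
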