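import Vale.Agent.P209.V.V2

set_option linter.all false

namespace Vale.Agent.P209.Strong

open MeasureTheory

/-! V3. Boxes with a grid of cells, each with at most one big ball. -/

theorem v3_sum_lt {n : ℕ} (hn : 2 ≤ n) {κ : Type} (K : Finset κ) (b : κ → ℝ) {w : ℝ} (hw : 0 < w)
    (m : Fin n → ℕ) (hm : ∀ i, 1 ≤ m i) (l : Fin n → ℝ) (hl : ∀ i, w * m i ≤ l i)
    (hK : K.card ≤ ∏ i, m i) (hb : ∀ p, 0 < b p ∧ b p < w) :
    ∑ p ∈ K, b p ^ n / (n.factorial : ℝ) < ∏ i, l i := by
  have h1 : ∀ p ∈ K, b p ^ n / (n.factorial : ℝ) ≤ w ^ n / 2 := by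
    intro p _
    have hf : (2 : ℝ) ≤ n.factorial := by
      have h : Nat.factorial 2 ≤ n.factorial := Nat.factorial_le hn
      have h' : (2 : ℕ) ≤ n.factorial := by simpa using h
      exact_mod_cast h'
    have h2 : b p ^ n ≤ w ^ n := pow_le_pow_left₀ (hb p).1.le (hb p).2.le n
    exact div_le_div₀ (pow_nonneg hw.le n) h2 two_pos hf
  have h2 := Finset.sum_le_card_nsmul K _ _ h1
  rw [nsmul_eq_mul] at h2
  have h3 : ((K.card : ℕ) : ℝ) ≤ ∏ i, (m i : ℝ) := by exact_mod_cast hK
  have h4 : (1 : ℝ) ≤ ∏ i, (m i : ℝ) := by
    have h : 1 ≤ ∏ i, m i := Finset.one_le_prod' fun i _ => hm i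
    exact_mod_cast h
  have h5 : ∏ i, (w * (m i : ℝ)) ≤ ∏ i, l i :=
    Finset.prod_le_prod (fun i _ => mul_nonneg hw.le (Nat.cast_nonneg _)) (fun i _ => hl i)
  rw [Finset.prod_mul_distrib, Finset.prod_const, Finset.card_univ, Fintype.card_fin] at h5
  have h6 : 0 < w ^ n := pow_pos hw n
  have h7 : (K.card : ℝ) * (w ^ n / 2) ≤ (∏ i, (m i : ℝ)) * (w ^ n / 2) :=
    mul_le_mul_of_nonneg_right h3 (by linarith)
  have h8 : 0 < w ^ n * ∏ i, (m i : ℝ) := mul_pos h6 (by linarith)
  have h9 : (∏ i, (m i : ℝ)) * (w ^ n / 2) = (w ^ n * ∏ i, (m i : ℝ)) / 2 := by ring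
  linarith

theorem v3_left {n : ℕ} (x y : Fin n → ℝ) (j : Fin n) {t : ℝ} (ht : t ≤ y j) :
    bx x y ∩ {a | a j < t} = bx x (Function.update y j t) := by
  ext a
  simp only [bx, Set.mem_inter_iff, Set.mem_setOf_eq]
  constructor
  · rintro ⟨h1, h2⟩ i
    refine ⟨(h1 i).1, ?_⟩
    by_cases hi : i = j
    · subst hi; rw [Function.update_self]; exact h2
    · rw [Function.update_of_ne hi]; exact (h1 i).2
  · intro h
    have hj := (h j).2
    rw [Function.update_self] at hj
    refine ⟨fun i => ⟨(h i).1, ?_⟩, hj⟩
    by_cases hi : i = j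
    · subst hi; exact hj.trans_le ht
    · have := (h i).2
      rwa [Function.update_of_ne hi] at this

theorem v3_right {n : ℕ} (x y : Fin n → ℝ) (j : Fin n) {t : ℝ} (ht : x j ≤ t) :
    bx x y ∩ {a | t < a j} = bx (Function.update x j t) y := by
  ext a
  simp only [bx, Set.mem_inter_iff, Set.mem_setOf_eq]
  constructor
  · rintro ⟨h1, h2⟩ i
    refine ⟨?_, (h1 i).2⟩
    by_cases hi : i = j
    · subst hi; rw [Function.update_self]; exact h2
    · rw [Function.update_of_ne hi]; exact (h1 i).1
  · intro h
    have hj := (h j).1
    rw [Function.update_self] at hj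
    refine ⟨fun i => ⟨?_, (h i).2⟩, hj⟩
    by_cases hi : i = j
    · subst hi; exact ht.trans_lt hj
    · have := (h i).1
      rwa [Function.update_of_ne hi] at this

theorem rows_FB (n : ℕ) (hn : 2 ≤ n) (δ N : ℝ) (hδ : 0 < δ) (hδ1 : δ ≤ 1) (hN : 0 ≤ N) :
    ∃ H0 : ℝ, 0 < H0 ∧ ∀ (w : ℝ) (x y : Fin n → ℝ) (m : Fin n → ℕ), H0 ≤ w →
      (∀ j : Fin n, (j : ℕ) = 0 → m j = 1 ∧ w ≤ y j - x j) →
      (∀ j : Fin n, 0 < (j : ℕ) → 1 ≤ m j ∧ 3 * w * m j ≤ y j - x j + 1) →
      ∀ (κ : Type) [Fintype κ] (b : κ → ℝ), Fintype.card κ ≤ ∏ j, m j →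
        (∀ p, 0 < b p ∧ b p < w) → FB δ N (bx x y) b := by
  classical
  obtain ⟨Hc, hHc, hcell⟩ := cell_FB n hn δ N hδ hδ1 hN
  refine ⟨max Hc 2, lt_of_lt_of_le hHc (le_max_left _ _), ?_⟩
  intro w x y m hw
  have hw1 : Hc ≤ w := (le_max_left _ _).trans hw
  have hw2 : (2 : ℝ) ≤ w := (le_max_right _ _).trans hw
  have key : ∀ (s : ℕ) (x y : Fin n → ℝ) (m : Fin n → ℕ), ∑ j, m j = s →
      (∀ j : Fin n, (j : ℕ) = 0 → m j = 1 ∧ w ≤ y j - x j) →
      (∀ j : Fin n, 0 < (j : ℕ) → 1 ≤ m j ∧ 3 * w * m j ≤ y j - x j + 1) →
      ∀ (κ : Type) [Fintype κ] (b : κ → ℝ), Fintype.card κ ≤ ∏ j, m j →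
        (∀ p, 0 < b p ∧ b p < w) → FB δ N (bx x y) b := by
    intro s
    induction s using Nat.strong_induction_on with
    | _ s ih =>
      intro x y m hs h0 h1 κ _ b hκ hb
      -- all lengths
      have hm1 : ∀ i, 1 ≤ m i := by
        intro i
        rcases Nat.eq_zero_or_pos (i : ℕ) with hi | hi
        · rw [(h0 i hi).1]
        · exact (h1 i hi).1
      have hlen : ∀ i, w * m i ≤ y i - x i := by
        intro i
        rcases Nat.eq_zero_or_pos (i : ℕ) with hi | hi
        · rw [(h0 i hi).1, Nat.cast_one, mul_one]; exact (h0 i hi).2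
        · have h2 := (h1 i hi).2
          have h3 : (1 : ℝ) ≤ m i := by exact_mod_cast hm1 i
          nlinarith
      have hlenw : ∀ i, w ≤ y i - x i := by
        intro i
        have h3 : (1 : ℝ) ≤ m i := by exact_mod_cast hm1 i
        have h4 := hlen i
        nlinarith
      have hxy : ∀ i, x i ≤ y i := fun i => by have := hlenw i; linarith
      by_cases hall : ∀ j, m j = 1
      · refine hcell w x y hw1 hlenw ?_ κ b ?_ hb
        · intro j hj
          have hj0 : 0 < (j : ℕ) := by omega
          have := (h1 j hj0).2
          rw [hall j, Nat.cast_one, mul_one] at this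
          linarith
        · refine hκ.trans ?_
          rw [Finset.prod_congr rfl fun j _ => hall j, Finset.prod_const_one]
      · push Not at hall
        obtain ⟨j, hj⟩ := hall
        have hj0 : 0 < (j : ℕ) := by
          rcases Nat.eq_zero_or_pos (j : ℕ) with h | h
          · exact absurd (h0 j h).1 hj
          · exact h
        have hj2 : 2 ≤ m j := by have := hm1 j; omega
        obtain ⟨hmj, hlj⟩ := h1 j hj0
        obtain ⟨q, hq⟩ : ∃ q : ℕ, m j = q + 1 := ⟨m j - 1, by omega⟩
        have hq1 : 1 ≤ q := by omega
        have hq1' : (1 : ℝ) ≤ q := by exact_mod_cast hq1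
        have hlj' : 3 * w * (q + 1) ≤ y j - x j + 1 := by
          rw [hq] at hlj; push_cast at hlj; exact hlj
        set x0 : ℝ := y j - 3 * w * q with hx0
        have hx0w : x j + 3 * w - 1 ≤ x0 := by rw [hx0]; nlinarith
        have hx1y : x0 + 1 ≤ y j := by rw [hx0]; nlinarith
        -- products
        set P : ℕ := ∏ i ∈ Finset.univ.erase j, m i with hP
        have hprod : ∏ i, m i = (q + 1) * P := by
          rw [← Finset.mul_prod_erase Finset.univ m (Finset.mem_univ j), hq]
        have hpr : ∀ c : ℕ, ∏ i, Function.update m j c i = c * P := by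
          intro c
          rw [← Finset.mul_prod_erase Finset.univ _ (Finset.mem_univ j), Function.update_self]
          congr 1
          refine Finset.prod_congr rfl fun i hi => ?_
          rw [Function.update_of_ne (Finset.ne_of_mem_erase hi)]
        have hsm : ∀ c : ℕ, ∑ i, Function.update m j c i = c + ∑ i ∈ Finset.univ.erase j, m i := by
          intro c
          rw [← Finset.add_sum_erase Finset.univ _ (Finset.mem_univ j), Function.update_self]
          congr 1
          refine Finset.sum_congr rfl fun i hi => ?_
          rw [Function.update_of_ne (Finset.ne_of_mem_erase hi)]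
        have hs' : s = (q + 1) + ∑ i ∈ Finset.univ.erase j, m i := by
          rw [← hs, ← Finset.add_sum_erase Finset.univ m (Finset.mem_univ j), hq]
        -- the choice of K
        obtain ⟨K, hK1, hK2⟩ : ∃ K : Finset κ, K.card ≤ P ∧ Kᶜ.card ≤ q * P := by
          rcases le_or_gt (Fintype.card κ) (q * P) with h | h
          · exact ⟨∅, by simp, by rw [Finset.compl_empty, Finset.card_univ]; exact h⟩
          · obtain ⟨T, hT1, hT2⟩ := Finset.exists_subset_card_eq
              (s := (Finset.univ : Finset κ)) (n := q * P) (by rw [Finset.card_univ]; exact h.le)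
            refine ⟨Tᶜ, ?_, by rw [compl_compl, hT2]⟩
            rw [Finset.card_compl, hT2]
            rw [hprod] at hκ
            have : (q + 1) * P = q * P + P := by ring
            omega
        have hleft : ∀ t, x0 ≤ t → t ≤ x0 + 1 → ∀ i,
            w * (Function.update m j 1 i : ℕ) ≤ Function.update y j t i - x i := by
          intro t ht1 ht2 i
          by_cases hi : i = j
          · subst hi
            rw [Function.update_self, Function.update_self, Nat.cast_one, mul_one]; linarith
          · rw [Function.update_of_ne hi, Function.update_of_ne hi]; exact hlen i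
        have hright : ∀ t, x0 ≤ t → t ≤ x0 + 1 → ∀ i,
            w * (Function.update m j q i : ℕ) ≤ y i - Function.update x j t i := by
          intro t ht1 ht2 i
          by_cases hi : i = j
          · subst hi
            rw [Function.update_self, Function.update_self]; nlinarith
          · rw [Function.update_of_ne hi, Function.update_of_ne hi]; exact hlen i
        have hmu : ∀ c : ℕ, 1 ≤ c → ∀ i, 1 ≤ Function.update m j c i := by
          intro c hc i
          by_cases hi : i = j
          · subst hi; rw [Function.update_self]; exact hc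
          · rw [Function.update_of_ne hi]; exact hm1 i
        have hnn : ∀ (c : ℕ) (i : Fin n), (0 : ℝ) ≤ w * (c : ℝ) := fun c i =>
          mul_nonneg (by linarith) (Nat.cast_nonneg _)
        refine FB.cut (by omega) hδ1 b K (bx_volume x y hxy).2 (bx_isOpen x y).measurableSet j
          (x0 := x0) (x1 := x0 + 1) (by linarith) ?_ ?_ ?_ ?_ ?_
        · -- the middle part
          have e1 : bx x y ∩ {a | x0 < a j ∧ a j < x0 + 1} =
              bx (Function.update x j x0) (Function.update y j (x0 + 1)) := by
            rw [show ({a : Fin n → ℝ | x0 < a j ∧ a j < x0 + 1}) =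
              {a | x0 < a j} ∩ {a | a j < x0 + 1} from rfl, ← Set.inter_assoc,
              v3_right x y j (by linarith), v3_left _ _ j hx1y]
          have h2 : ∀ i, (1 : ℝ) ≤ Function.update y j (x0 + 1) i - Function.update x j x0 i := by
            intro i
            by_cases hi : i = j
            · subst hi; rw [Function.update_self, Function.update_self]; linarith
            · rw [Function.update_of_ne hi, Function.update_of_ne hi]
              have := hlenw i; linarith
          rw [e1, (bx_volume _ _ fun i => by have := h2 i; linarith).1]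
          have h3 : (1 : ℝ) ≤ ∏ i, (Function.update y j (x0 + 1) i - Function.update x j x0 i) := by
            have h := Finset.prod_le_prod (s := Finset.univ) (f := fun _ : Fin n => (1 : ℝ))
              (g := fun i => Function.update y j (x0 + 1) i - Function.update x j x0 i)
              (fun i _ => zero_le_one) (fun i _ => h2 i)
            rwa [Finset.prod_const_one] at h
          have h4 : (2 : ℝ) ≤ n.factorial := by
            have h : Nat.factorial 2 ≤ n.factorial := Nat.factorial_le hn
            have h' : (2 : ℕ) ≤ n.factorial := by simpa using h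
            exact_mod_cast h'
          have h5 : 1 / (n.factorial : ℝ) ≤ 1 / 2 := one_div_le_one_div_of_le two_pos h4
          linarith
        · rw [v3_left x y j hx1y, (bx_volume _ _ fun i => by
            have := hleft (x0 + 1) (by linarith) le_rfl i
            have := hnn (Function.update m j 1 i) i
            linarith).1]
          exact v3_sum_lt hn K b (by linarith) (Function.update m j 1) (hmu 1 le_rfl) _
            (hleft (x0 + 1) (by linarith) le_rfl) (by rw [hpr, one_mul]; exact hK1) hb
        · rw [v3_right x y j (by linarith), (bx_volume _ _ fun i => by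
            have := hright (x0 + 1) (by linarith) le_rfl i
            have := hnn (Function.update m j q i) i
            linarith).1]
          exact v3_sum_lt hn Kᶜ b (by linarith) (Function.update m j q) (hmu q hq1) _
            (hright (x0 + 1) (by linarith) le_rfl) (by rw [hpr]; exact hK2) hb
        · intro t ht1 ht2
          rw [v3_left x y j (by linarith)]
          refine ih (1 + ∑ i ∈ Finset.univ.erase j, m i) (by omega) x (Function.update y j t)
            (Function.update m j 1) (hsm 1) ?_ ?_ _ _ ?_ (fun p => hb p)
          · intro i hi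
            have hij : i ≠ j := by rintro rfl; omega
            rw [Function.update_of_ne hij, Function.update_of_ne hij]; exact h0 i hi
          · intro i hi
            by_cases hij : i = j
            · subst hij
              rw [Function.update_self, Function.update_self, Nat.cast_one, mul_one]
              exact ⟨le_rfl, by linarith⟩
            · rw [Function.update_of_ne hij, Function.update_of_ne hij]; exact h1 i hi
          · rw [hpr, one_mul, Fintype.card_of_subtype K (fun p => Iff.rfl)]; exact hK1
        · intro t ht1 ht2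
          rw [v3_right x y j (by linarith)]
          refine ih (q + ∑ i ∈ Finset.univ.erase j, m i) (by omega) (Function.update x j t) y
            (Function.update m j q) (hsm q) ?_ ?_ _ _ ?_ (fun p => hb p)
          · intro i hi
            have hij : i ≠ j := by rintro rfl; omega
            rw [Function.update_of_ne hij, Function.update_of_ne hij]; exact h0 i hi
          · intro i hi
            by_cases hij : i = j
            · subst hij
              rw [Function.update_self, Function.update_self]
              exact ⟨hq1, by linarith⟩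
            · rw [Function.update_of_ne hij, Function.update_of_ne hij]; exact h1 i hi
          · rw [hpr, Fintype.card_of_subtype Kᶜ (fun p => Finset.mem_compl)]; exact hK2
  intro h0 h1 κ _ b hκ hb
  exact key _ x y m rfl h0 h1 κ b hκ hb

end Vale.Agent.P209.Strong
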