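import Vale.Agent.P209.Strong.G7

set_option linter.all false

namespace Vale.Agent.P209.Strong

open MeasureTheory

/-! V4. All simplex blocks are filled. -/

theorem PS_all (n : ℕ) (hn : 2 ≤ n) (k : ℕ) (hk : k < n) : PS n k := by
  intro c L δ N hc hL hδ hδ1 hN
  have hc' : 0 < min c 1 := lt_min hc one_pos
  obtain ⟨R0, hR0, h⟩ := TS_all n hn k hk (min c 1) L δ N hc' hL hδ hδ1 hN
  refine ⟨R0, hR0, fun Rv Rb hRv hRb l u σ hS => ?_⟩
  have hRb0 : 0 < Rb := hR0.trans_le hRb
  have hc1 : min c 1 ≤ 1 := min_le_right _ _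
  have hcR : min c 1 * Rb ≤ Rb := by nlinarith
  have hsz : ∀ a, Pre l u k a → σ a ≤ Rb := fun a ha => (hS.size a ha).2
  have hbs : Rb ≤ bsum k n (fun _ => Rb) :=
    g1a_le_bsum (k := k) (a := fun _ : Fin n => Rb) (fun _ _ => hRb0) ⟨k, hk⟩ le_rfl
  have hTD : TD (min c 1) L Rv Rb k l u σ (fun _ => Rb) Rb (min c 1 * Rb) :=
    { sd := hS.mono (min_le_left _ _) le_rfl hRb0.le
        (fun j hj => (hR0.trans_le (hRv j hj)).le)
      cap := fun _ _ => hcR
      caps := hcR
      pair := fun a ha i j _ _ _ => by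
        have := hsz a ha
        show σ a + min c 1 * Rb ≤ Rb + Rb
        linarith
      pairs := fun a ha j _ => by
        have := hsz a ha
        show σ a + min c 1 * Rb ≤ Rb + Rb
        linarith
      tot := fun a ha => by
        have := hsz a ha
        linarith }
  have h1 := h Rv Rb hRv hRb l u σ (fun _ => Rb) Rb hTD
  rwa [TR_eq_SR hk (fun a ha _ _ => hsz a ha) hsz] at h1

end Vale.Agent.P209.Strong
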