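import Vale.Agent.P209.V.V4

set_option linter.all false

namespace Vale.Agent.P209.Strong

open MeasureTheory

/-! V5a. The outer parts of the slab. -/

/-- lower walls of the partially truncated slab -/
noncomputable def v5l {d : ℕ} (s0 : ℝ) : Fin (d + 1) → (Fin (d + 1) → ℝ) → ℝ :=
  fun j _ => if (j : ℕ) = 0 then s0 else 0

/-- upper walls of the partially truncated slab -/
noncomputable def v5u {d : ℕ} (R : ℝ) (t : Fin (d + 1) → ℝ) :
    Fin (d + 1) → (Fin (d + 1) → ℝ) → ℝ :=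
  fun j _ => if (j : ℕ) = 0 then R else t j

/-- size of the block of the partially truncated slab -/
noncomputable def v5s {d : ℕ} (k : ℕ) : (Fin (d + 1) → ℝ) → ℝ := fun y => y 0 - bsum 1 k y

/-- translation of a block coordinate of an uncapped simplex block -/
theorem v5a_fill_gt {n k : ℕ} {c L Rb δ N : ℝ} {Rv : Fin n → ℝ} {l u : Fin n → (Fin n → ℝ) → ℝ}
    {σ : (Fin n → ℝ) → ℝ} (hsd : SD c L Rv Rb k l u (fun a => σ a - 0)) {p : Fin n}
    (hp : k ≤ (p : ℕ)) {x : ℝ} (hx : 0 ≤ x)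
    (h : Fill δ N (SR k l u (fun a => σ a - x))) :
    Fill δ N (SR k l u σ ∩ {a | x < a p}) := by
  have hdep : ∀ y y' : Fin n → ℝ, (∀ i : Fin n, (i : ℕ) < k → y i = y' i) → σ y = σ y' := by
    intro y y' hy
    have h0 : (fun a => σ a - 0) y = (fun a => σ a - 0) y' := hsd.dep hy
    simpa using h0
  refine Fill.image (LinearEquiv.refl ℝ (Fin n → ℝ)) (fun i j => g1d_single_int i j)
    (fun i j => g1d_single_int i j) (Pi.single p (-x)) ?_
  have hT : ∀ a : Fin n → ℝ, (LinearEquiv.refl ℝ (Fin n → ℝ)) a + (Pi.single p (-x) : Fin n → ℝ) =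
      Function.update a p (a p - x) := by
    intro a
    funext j
    rw [Pi.add_apply, LinearEquiv.refl_apply]
    by_cases hj : j = p
    · subst hj
      rw [Function.update_self, Pi.single_eq_same]
      ring
    · rw [Function.update_of_ne hj, Pi.single_eq_of_ne hj, add_zero]
  have hlow : ∀ (a : Fin n → ℝ) (t : ℝ) (i : Fin n), (i : ℕ) < k →
      Function.update a p t i = a i := by
    intro a t i hi
    have : i ≠ p := by
      rintro rfl
      omega
    rw [Function.update_of_ne this]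
  have e : (fun a => (LinearEquiv.refl ℝ (Fin n → ℝ)) a + (Pi.single p (-x) : Fin n → ℝ)) ''
      (SR k l u σ ∩ {a | x < a p}) =
      SR k l u (fun a => σ a - x) := by
    ext y
    constructor
    · rintro ⟨a, ⟨⟨h1, h2, h3⟩, h5⟩, rfl⟩
      have h5' : x < a p := h5
      simp only [hT]
      refine ⟨fun j hj => ?_, fun j hj => ?_, ?_⟩
      · rw [g1d_wall hsd.wl (hlow a _) j hj, g1d_wall hsd.wu (hlow a _) j hj, hlow a _ j hj]
        exact h1 j hj
      · by_cases hjp : j = p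
        · subst hjp
          rw [Function.update_self]
          linarith
        · rw [Function.update_of_ne hjp]
          exact h2 j hj
      · show bsum k n _ < σ _ - x
        rw [hdep _ _ (hlow a _), HM.bsum_update _ _ ⟨hp, p.2⟩]
        linarith
    · rintro ⟨h1, h2, h3⟩
      have h3' : bsum k n y < σ y - x := h3
      have h6 := h2 p hp
      refine ⟨Function.update y p (y p + x), ⟨⟨fun j hj => ?_, fun j hj => ?_, ?_⟩, ?_⟩, ?_⟩
      · rw [g1d_wall hsd.wl (hlow y _) j hj, g1d_wall hsd.wu (hlow y _) j hj, hlow y _ j hj]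
        exact h1 j hj
      · by_cases hjp : j = p
        · subst hjp
          rw [Function.update_self]
          linarith
        · rw [Function.update_of_ne hjp]
          exact h2 j hj
      · rw [hdep _ _ (hlow y _), HM.bsum_update _ _ ⟨hp, p.2⟩]
        linarith
      · show x < Function.update y p (y p + x) p
        rw [Function.update_self]
        linarith
      · simp only [hT]
        rw [Function.update_idem, Function.update_self]
        have : y p + x - x = y p := by ring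
        rw [this, Function.update_eq_self]
  rw [e]
  exact h

theorem v5a_wall {n : ℕ} (L : ℝ) (hL : 0 ≤ L) (f : Fin n → ℝ) :
    Walls (n := n) L (fun j _ => f j) := by
  constructor
  · intro j y y' _
    rfl
  · intro j y y'
    simp only [sub_self, abs_zero]
    positivity

theorem v5a_int {d : ℕ} {k : ℕ} (h1k : 1 ≤ k) (x : ℝ) :
    IntAff k (fun y : Fin (d + 1) → ℝ => v5s k y - x) := by
  refine ⟨-x, fun j => (if j = 0 then 1 else 0) - (if 1 ≤ (j : ℕ) ∧ (j : ℕ) < k then 1 else 0),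
    fun j hj => ?_, fun a => ?_⟩
  · have h1 : j ≠ 0 := by
      rintro rfl
      simp at hj
      omega
    have h2 : ¬ (1 ≤ (j : ℕ) ∧ (j : ℕ) < k) := by omega
    show ((if j = 0 then 1 else 0) - (if 1 ≤ (j : ℕ) ∧ (j : ℕ) < k then 1 else 0) : ℤ) = 0
    rw [if_neg h1, if_neg h2]
    rfl
  · have h2 : ∀ j : Fin (d + 1), (((if j = 0 then (1 : ℤ) else 0) -
        (if 1 ≤ (j : ℕ) ∧ (j : ℕ) < k then 1 else 0) : ℤ) : ℝ) * a j =
        (if j = 0 then a j else 0) - (if 1 ≤ (j : ℕ) ∧ (j : ℕ) < k then a j else 0) := by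
      intro j
      by_cases h3 : j = 0
      · subst h3
        simp
      · by_cases h4 : 1 ≤ (j : ℕ) ∧ (j : ℕ) < k
        · rw [if_neg h3, if_pos h4, if_neg h3, if_pos h4]
          push_cast
          ring
        · rw [if_neg h3, if_neg h4, if_neg h3, if_neg h4]
          push_cast
          ring
    rw [Finset.sum_congr rfl fun j _ => h2 j, Finset.sum_sub_distrib]
    rw [Finset.sum_ite_eq' Finset.univ (0 : Fin (d + 1)) a, if_pos (Finset.mem_univ _)]
    show a 0 - bsum 1 k a - x = _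
    unfold bsum
    ring

theorem v5a_lip {d : ℕ} (k : ℕ) (x : ℝ) (y y' : Fin (d + 1) → ℝ) :
    |(v5s k y - x) - (v5s k y' - x)| ≤ ((d : ℝ) + 2) * dist y y' := by
  have h1 := HM.bsum_lip (k := 1) (j := k) y y'
  have h2 : |y 0 - y' 0| ≤ dist y y' := by
    rw [← Real.dist_eq]
    exact dist_le_pi_dist y y' 0
  have h3 : (v5s k y - x) - (v5s k y' - x) = (y 0 - y' 0) - (bsum 1 k y - bsum 1 k y') := by
    unfold v5s
    ring
  rw [h3]
  have h4 := abs_sub (y 0 - y' 0) (bsum 1 k y - bsum 1 k y')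
  push_cast at h1
  nlinarith

theorem v5a_bsum_le {d : ℕ} {k : ℕ} (h1k : 1 ≤ k) (hk : k < d + 1) {B : ℝ} (hB : 0 ≤ B)
    (a : Fin (d + 1) → ℝ) (h : ∀ i : Fin (d + 1), 1 ≤ (i : ℕ) → (i : ℕ) < k → a i ≤ B) :
    bsum 1 k a ≤ ((k : ℝ) - 1) * B := by
  have key : ∀ m : ℕ, 1 ≤ m → m ≤ k → bsum 1 m a ≤ ((m : ℝ) - 1) * B := by
    intro m hm
    induction m, hm using Nat.le_induction with
    | base =>
      intro _
      rw [HM.bsum_self]
      simp
    | succ m hm ih =>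
      intro hmk
      have h1 := ih (by omega)
      have h2 := HM.bsum_succ (k := 1) (⟨m, by omega⟩ : Fin (d + 1)) hm a
      simp only at h2
      rw [h2]
      have h3 := h ⟨m, by omega⟩ hm (by simp only; omega)
      push_cast
      linarith
  exact key k h1k le_rfl

theorem v5a_sd {d : ℕ} {R s0 ℓ x : ℝ} {k : ℕ} (hk : k < d + 1) (t : Fin (d + 1) → ℝ)
    (h1k : 1 ≤ k) (hRs : 0 ≤ R - s0) (hℓ : 1 ≤ ℓ) (hR4 : R - s0 ≤ R / 4)
    (hR : 4 * ((d : ℝ) + 1) * ℓ = R) (ht : ∀ j, ℓ ≤ t j ∧ t j ≤ ℓ + 1) (hx0 : 0 ≤ x)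
    (hx1 : x ≤ ℓ + 1) :
    SD (1 / 4) ((d : ℝ) + 2) (fun j : Fin (d + 1) => if (j : ℕ) = 0 then R - s0 else ℓ + 1) R k
      (v5l s0) (v5u R t) (fun a => v5s k a - x) where
  wl := v5a_wall _ (by positivity) (fun j : Fin (d + 1) => if (j : ℕ) = 0 then s0 else 0)
  wu := v5a_wall _ (by positivity) (fun j : Fin (d + 1) => if (j : ℕ) = 0 then R else t j)
  int := v5a_int h1k x
  lip := v5a_lip k x
  fat := fun j a hj _ => by
    unfold v5l v5u
    by_cases h0 : (j : ℕ) = 0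
    · simp only [if_pos h0]
      constructor <;> linarith
    · simp only [if_neg h0]
      have := ht j
      constructor <;> linarith
  size := fun a ha => by
    have h0 := ha 0 (by simp; omega)
    unfold v5l v5u at h0
    simp only [Fin.val_zero, if_true] at h0
    have hj : ∀ i : Fin (d + 1), 1 ≤ (i : ℕ) → (i : ℕ) < k → 0 < a i ∧ a i ≤ ℓ + 1 := by
      intro i hi1 hik
      have h1 := ha i hik
      unfold v5l v5u at h1
      have h2 : ¬ (i : ℕ) = 0 := by omega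
      simp only [if_neg h2] at h1
      exact ⟨h1.1, h1.2.le.trans (ht i).2⟩
    have h2 := v5a_bsum_le h1k hk (B := ℓ + 1) (by linarith) a fun i h3 h4 => (hj i h3 h4).2
    have h3 : 0 ≤ bsum 1 k a := HM.bsum_nonneg fun i h3 h4 => (hj i h3 h4).1
    have hkd : (k : ℝ) ≤ d := by
      have : k ≤ d := by omega
      exact_mod_cast this
    have hd0 : (0 : ℝ) ≤ d := by positivity
    have h4 : ((k : ℝ) - 1) * (ℓ + 1) ≤ ((d : ℝ) - 1) * (ℓ + 1) :=
      mul_le_mul_of_nonneg_right (by linarith) (by linarith)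
    have h5 : (d : ℝ) + 1 ≤ ((d : ℝ) + 1) * ℓ := by nlinarith
    show 1 / 4 * R ≤ a 0 - bsum 1 k a - x ∧ a 0 - bsum 1 k a - x ≤ R
    constructor
    · nlinarith
    · linarith

/-- The part `x < a k` of the slab truncated by `a j < t j`, `1 ≤ j < k`, is filled. -/
theorem slab_outer (d : ℕ) (hd : 1 ≤ d) (δ N : ℝ) (hδ : 0 < δ) (hδ1 : δ ≤ 1) (hN : 0 ≤ N) :
    ∃ H0 : ℝ, 0 < H0 ∧ ∀ (R s0 ℓ x : ℝ) (k : ℕ) (hk : k < d + 1) (t : Fin (d + 1) → ℝ),
      1 ≤ k → H0 ≤ R - s0 → H0 ≤ ℓ → R - s0 ≤ R / 4 → 4 * ((d : ℝ) + 1) * ℓ = R →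
      (∀ j, ℓ ≤ t j ∧ t j ≤ ℓ + 1) → ℓ ≤ x → x ≤ ℓ + 1 →
      Fill δ N (SR k (v5l s0) (v5u R t) (v5s k) ∩ {a | x < a ⟨k, hk⟩}) := by
  have hall : ∀ q : Fin (d + 1), ∃ R0 : ℝ, 0 < R0 ∧
      ∀ (Rv : Fin (d + 1) → ℝ) (Rb : ℝ), (∀ j : Fin (d + 1), (j : ℕ) < (q : ℕ) → R0 ≤ Rv j) →
      R0 ≤ Rb →
      ∀ (l u : Fin (d + 1) → (Fin (d + 1) → ℝ) → ℝ) (σ : (Fin (d + 1) → ℝ) → ℝ),
        SD (1 / 4) ((d : ℝ) + 2) Rv Rb q l u σ → Fill δ N (SR q l u σ) := fun q =>
    PS_all (d + 1) (by omega) q q.2 (1 / 4) ((d : ℝ) + 2) δ N (by norm_num) (by positivity)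
      hδ hδ1 hN
  choose R0 hR0 H using hall
  have hsum : ∀ q, R0 q ≤ ∑ q, R0 q := fun q =>
    Finset.single_le_sum (fun i _ => (hR0 i).le) (Finset.mem_univ q)
  have hsum0 : 0 ≤ ∑ q, R0 q := Finset.sum_nonneg fun i _ => (hR0 i).le
  refine ⟨1 + ∑ q, R0 q, by linarith, fun R s0 ℓ x k hk t h1k hRs hℓ hR4 hR ht hx0 hx1 => ?_⟩
  have hs := hsum ⟨k, hk⟩
  have hd0 : (0 : ℝ) ≤ d := by positivity
  have hℓ1 : 1 ≤ ℓ := by linarith
  have hRℓ : ℓ ≤ R := by nlinarith
  refine v5a_fill_gt (c := 1 / 4) (L := (d : ℝ) + 2) (Rb := R)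
    (Rv := fun j : Fin (d + 1) => if (j : ℕ) = 0 then R - s0 else ℓ + 1)
    (v5a_sd (x := 0) hk t h1k (by linarith) hℓ1 hR4 hR ht le_rfl (by linarith))
    (p := ⟨k, hk⟩) le_rfl (by linarith : (0 : ℝ) ≤ x) ?_
  refine H ⟨k, hk⟩ _ R (fun j hj => ?_) (by linarith) _ _ _
    (v5a_sd (x := x) hk t h1k (by linarith) hℓ1 hR4 hR ht (by linarith) hx1)
  show R0 ⟨k, hk⟩ ≤ if (j : ℕ) = 0 then R - s0 else ℓ + 1
  split_ifs
  · linarith
  · linarith

end Vale.Agent.P209.Strong
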