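import Vale.Agent.P209.V.V3
import Vale.Agent.P209.V.V5a

set_option linter.all false

namespace Vale.Agent.P209.Strong

open MeasureTheory

/-! V5. A thin slab with many big balls. -/

theorem v5_bsum {n : ℕ} (k : ℕ) (hk : 1 ≤ k) (hkn : k ≤ n) (a : Fin n → ℝ) :
    bsum 1 k a + bsum k n a = bsum 1 n a := by
  simp only [bsum]
  rw [← Finset.sum_add_distrib]
  refine Finset.sum_congr rfl fun i _ => ?_
  have hi := i.2
  by_cases h1 : 1 ≤ (i : ℕ)
  · by_cases h2 : (i : ℕ) < k
    · rw [if_pos ⟨h1, h2⟩, if_neg (by omega), if_pos ⟨h1, hi⟩, add_zero]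
    · rw [if_neg (by omega), if_pos (by omega), if_pos ⟨h1, hi⟩, zero_add]
  · rw [if_neg (by omega), if_neg (by omega), if_neg (by omega), add_zero]

theorem v5_mem {d : ℕ} (k : ℕ) (hk : 1 ≤ k) (hkn : k ≤ d + 1) (R s0 : ℝ) (t a : Fin (d + 1) → ℝ) :
    a ∈ SR k (v5l s0) (v5u R t) (v5s k) ↔ (s0 < a 0 ∧ a 0 < R) ∧
      (∀ j : Fin (d + 1), 1 ≤ (j : ℕ) → 0 < a j) ∧
      (∀ j : Fin (d + 1), 1 ≤ (j : ℕ) → (j : ℕ) < k → a j < t j) ∧ bsum 1 (d + 1) a < a 0 := by
  have hb := v5_bsum k hk hkn a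
  constructor
  · rintro ⟨h1, h2, h3⟩
    refine ⟨?_, ?_, ?_, ?_⟩
    · have h := h1 0 (show (0 : ℕ) < k by omega)
      simpa [v5l, v5u] using h
    · intro j hj
      by_cases hjk : (j : ℕ) < k
      · have h := (h1 j hjk).1
        simp only [v5l] at h
        rwa [if_neg (by omega)] at h
      · exact h2 j (by omega)
    · intro j hj hjk
      have h := (h1 j hjk).2
      simp only [v5u] at h
      rwa [if_neg (by omega)] at h
    · simp only [v5s] at h3
      linarith
  · rintro ⟨h0, h1, h2, h3⟩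
    refine ⟨?_, ?_, ?_⟩
    · intro j hj
      by_cases hj0 : (j : ℕ) = 0
      · have : j = 0 := Fin.ext hj0
        subst this
        simpa [v5l, v5u] using h0
      · simp only [v5l, v5u]
        rw [if_neg hj0, if_neg hj0]
        exact ⟨h1 j (by omega), h2 j (by omega) hj⟩
    · intro j hj
      exact h1 j (by omega)
    · simp only [v5s]
      linarith

theorem v5_open {d : ℕ} (k : ℕ) (hk : 1 ≤ k) (hkn : k ≤ d + 1) (R s0 : ℝ) (t : Fin (d + 1) → ℝ) :
    IsOpen (SR k (v5l s0) (v5u R t) (v5s k)) := by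
  have e : SR k (v5l s0) (v5u R t) (v5s k) =
      (({a : Fin (d + 1) → ℝ | s0 < a 0} ∩ {a | a 0 < R}) ∩
      ((⋂ j : Fin (d + 1), {a | 1 ≤ (j : ℕ) → 0 < a j}) ∩
      ((⋂ j : Fin (d + 1), {a | 1 ≤ (j : ℕ) → (j : ℕ) < k → a j < t j}) ∩
        {a | bsum 1 (d + 1) a < a 0}))) := by
    ext a
    rw [v5_mem k hk hkn]
    simp only [Set.mem_inter_iff, Set.mem_iInter, Set.mem_setOf_eq]
  rw [e]
  refine IsOpen.inter (IsOpen.inter (isOpen_lt continuous_const (continuous_apply 0))
    (isOpen_lt (continuous_apply 0) continuous_const)) (IsOpen.inter ?_ (IsOpen.inter ?_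
    (isOpen_lt (D3d_bsum_cont _ _) (continuous_apply 0))))
  · refine isOpen_iInter_of_finite fun j => ?_
    by_cases hj : 1 ≤ (j : ℕ)
    · simpa [hj] using isOpen_lt continuous_const (continuous_apply j)
    · simp [hj]
  · refine isOpen_iInter_of_finite fun j => ?_
    by_cases hj : 1 ≤ (j : ℕ)
    · by_cases hj2 : (j : ℕ) < k
      · simpa [hj, hj2] using isOpen_lt (continuous_apply j) continuous_const
      · simp [hj2]
    · simp [hj]

theorem v5_le_bsum {d : ℕ} (a : Fin (d + 1) → ℝ) (h : ∀ j : Fin (d + 1), 1 ≤ (j : ℕ) → 0 < a j)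
    (j : Fin (d + 1)) (hj : 1 ≤ (j : ℕ)) : a j ≤ bsum 1 (d + 1) a := by
  simp only [bsum]
  have h1 : (fun i : Fin (d + 1) => if 1 ≤ (i : ℕ) ∧ (i : ℕ) < d + 1 then a i else 0) j = a j := by
    simp only
    rw [if_pos ⟨hj, j.2⟩]
  rw [← h1]
  refine Finset.single_le_sum (f := fun i : Fin (d + 1) => if 1 ≤ (i : ℕ) ∧ (i : ℕ) < d + 1 then a i else 0)
    (fun i _ => ?_) (Finset.mem_univ j)
  split_ifs with hi
  · exact (h i hi.1).le
  · exact le_rfl

theorem v5_fin {d : ℕ} (k : ℕ) (hk : 1 ≤ k) (hkn : k ≤ d + 1) (R s0 : ℝ) (hR : 0 ≤ R) (hs : 0 ≤ s0)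
    (t : Fin (d + 1) → ℝ) : volume (SR k (v5l s0) (v5u R t) (v5s k)) ≠ ⊤ := by
  suffices hsub : SR k (v5l s0) (v5u R t) (v5s k) ⊆
      bx (fun _ : Fin (d + 1) => (0 : ℝ)) (fun _ => R) by
    exact ((measure_mono hsub).trans_lt (lt_top_iff_ne_top.2 (bx_volume _ _ fun _ => hR).2)).ne
  intro a ha
  obtain ⟨h0, h1, h2, h3⟩ := (v5_mem k hk hkn R s0 t a).1 ha
  intro j
  by_cases hj : (j : ℕ) = 0
  · have : j = 0 := Fin.ext hj
    subst this
    exact ⟨by linarith [h0.1], h0.2⟩
  · have h4 := v5_le_bsum a h1 j (by omega)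
    exact ⟨h1 j (by omega), by linarith [h0.2]⟩

/-- sum of the coordinates below a bound -/
theorem v5_bsum_le {d : ℕ} (a c : Fin (d + 1) → ℝ) (h : ∀ j : Fin (d + 1), 1 ≤ (j : ℕ) → a j ≤ c j) :
    bsum 1 (d + 1) a ≤ ∑ i : Fin d, c i.succ := by
  have : bsum 1 (d + 1) a = ∑ i : Fin d, a i.succ := by
    simp only [bsum]
    rw [Fin.sum_univ_succ]
    simp
  rw [this]
  exact Finset.sum_le_sum fun i _ => h _ (by simp)

/-- the box contained in the block -/
theorem v5_box {d : ℕ} (k : ℕ) (hk : 1 ≤ k) (hkn : k < d + 1) (R s0 ℓ p q : ℝ)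
    (t : Fin (d + 1) → ℝ) (ht : ∀ j, ℓ ≤ t j) (hp : 0 ≤ p) (hpq : p ≤ q) (hq : q ≤ 2 * ℓ) (hℓ : 0 ≤ ℓ)
    (hs : ((d : ℝ) + 1) * ℓ ≤ s0) (hsR : s0 ≤ R) (B : Set (Fin (d + 1) → ℝ))
    (hB : ∀ a : Fin (d + 1) → ℝ, p < a ⟨k, hkn⟩ → a ⟨k, hkn⟩ < q → a ∈ B) :
    (R - s0) * (∏ i : Fin d, if ((i : ℕ) + 1 = k) then q - p else ℓ) ≤
      (volume (SR k (v5l s0) (v5u R t) (v5s k) ∩ B)).toReal := by
  set x : Fin (d + 1) → ℝ := fun j => if (j : ℕ) = 0 then s0 else if (j : ℕ) = k then p else 0 with hx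
  set y : Fin (d + 1) → ℝ := fun j => if (j : ℕ) = 0 then R else if (j : ℕ) = k then q else ℓ with hy
  have hxy : ∀ j, x j ≤ y j := by
    intro j
    simp only [hx, hy]
    split_ifs
    · exact hsR
    · exact hpq
    · exact hℓ
  have hv := (bx_volume x y hxy).1
  have hprod : ∏ j, (y j - x j) = (R - s0) * (∏ i : Fin d, if ((i : ℕ) + 1 = k) then q - p else ℓ) := by
    rw [Fin.prod_univ_succ]
    congr 1
    refine Finset.prod_congr rfl fun i _ => ?_
    have h0 : ¬ ((i : ℕ) + 1 = 0) := by omega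
    simp only [hx, hy, Fin.val_succ]
    rw [if_neg h0, if_neg h0]
    by_cases hc : (i : ℕ) + 1 = k
    · rw [if_pos hc, if_pos hc, if_pos hc]
    · rw [if_neg hc, if_neg hc, if_neg hc]
      ring
  rw [← hprod, ← hv]
  refine ENNReal.toReal_mono ?_ (measure_mono ?_)
  · exact ((measure_mono Set.inter_subset_left).trans_lt (lt_top_iff_ne_top.2
      (v5_fin k hk hkn.le R s0 (by nlinarith) (by nlinarith) t))).ne
  · intro a ha
    have hk0 : k ≠ 0 := by omega
    have hak : p < a ⟨k, hkn⟩ ∧ a ⟨k, hkn⟩ < q := by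
      have h := ha ⟨k, hkn⟩
      simp only [hx, hy, if_true] at h
      rwa [if_neg hk0, if_neg hk0] at h
    have ha0 : s0 < a 0 ∧ a 0 < R := by
      have h := ha 0
      simpa [hx, hy] using h
    refine ⟨?_, hB a hak.1 hak.2⟩
    rw [v5_mem k hk hkn.le]
    have hj : ∀ j : Fin (d + 1), 1 ≤ (j : ℕ) → (j : ℕ) ≠ k → 0 < a j ∧ a j < ℓ := by
      intro j hj1 hj2
      have h := ha j
      simp only [hx, hy] at h
      rwa [if_neg (by omega), if_neg hj2, if_neg (by omega), if_neg hj2] at h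
    refine ⟨ha0, ?_, ?_, ?_⟩
    · intro j hj1
      by_cases hj2 : (j : ℕ) = k
      · have : j = ⟨k, hkn⟩ := Fin.ext hj2
        rw [this]
        linarith [hak.1]
      · exact (hj j hj1 hj2).1
    · intro j hj1 hj2
      exact (hj j hj1 (by omega)).2.trans_le (ht j)
    · have h1 := v5_bsum_le a (fun j : Fin (d + 1) => ℓ + if (j : ℕ) = k then ℓ else 0) (by
        intro j hj1
        by_cases hj2 : (j : ℕ) = k
        · have : j = ⟨k, hkn⟩ := Fin.ext hj2
          rw [if_pos hj2, this]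
          linarith [hak.2]
        · rw [if_neg hj2]
          linarith [(hj j hj1 hj2).2])
      have h2 : ∑ i : Fin d, (ℓ + if ((i.succ : Fin (d + 1)) : ℕ) = k then ℓ else 0) = ((d : ℝ) + 1) * ℓ := by
        rw [Finset.sum_add_distrib]
        simp only [Finset.sum_const, Finset.card_univ, Fintype.card_fin, nsmul_eq_mul]
        have h3 : ∑ i : Fin d, (if ((i.succ : Fin (d + 1)) : ℕ) = k then ℓ else 0) = ℓ := by
          rw [Finset.sum_eq_single (⟨k - 1, by omega⟩ : Fin d)]
          · rw [if_pos (by simp; omega)]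
          · intro b _ hb
            rw [if_neg]
            intro hb2
            apply hb
            apply Fin.ext
            simp at hb2 ⊢
            omega
          · intro h
            exact absurd (Finset.mem_univ _) h
        rw [h3]
        ring
      rw [h2] at h1
      linarith [ha0.1]

theorem v5_one_le_prod {ι : Type} [Fintype ι] (f : ι → ℝ) (h : ∀ i, 1 ≤ f i) : 1 ≤ ∏ i, f i := by
  have := Finset.prod_le_prod (s := Finset.univ) (f := fun _ : ι => (1 : ℝ)) (g := f)
    (fun _ _ => zero_le_one) (fun i _ => h i)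
  simpa using this

theorem slab_FB (d : ℕ) (hd : 1 ≤ d) (δ N : ℝ) (hδ : 0 < δ) (hδ1 : δ ≤ 1) (hN : 0 ≤ N) :
    ∃ H0 : ℝ, 0 < H0 ∧ ∀ (R s0 : ℝ) (M : ℕ), H0 ≤ R - s0 → 1 ≤ M →
      12 * ((d : ℝ) + 1) * (R - s0) * M ≤ R →
      ∀ (κ : Type) [Fintype κ] (b : κ → ℝ), Fintype.card κ ≤ M ^ d →
        (∀ p, 0 < b p ∧ b p < R - s0) →
        FB δ N (SR (n := d + 1) 1 (fun _ _ => s0) (fun _ _ => R) (fun y => y 0)) b := by
  classical
  obtain ⟨H1, hH1, hrows⟩ := rows_FB (d + 1) (by omega) δ N hδ hδ1 hN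
  obtain ⟨H2, hH2, houter⟩ := slab_outer d hd δ N hδ hδ1 hN
  refine ⟨max (max H1 H2) 2, by positivity, ?_⟩
  intro R s0 M hw hM hRM κ _ b hcard hb
  have hw1 : H1 ≤ R - s0 := ((le_max_left _ _).trans (le_max_left _ _)).trans hw
  have hw2 : H2 ≤ R - s0 := ((le_max_right _ _).trans (le_max_left _ _)).trans hw
  have hw3 : 2 ≤ R - s0 := (le_max_right _ _).trans hw
  set w := R - s0 with hwdef
  have hM1 : (1 : ℝ) ≤ M := by exact_mod_cast hM
  have hd1 : (1 : ℝ) ≤ d := by exact_mod_cast hd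
  have hd0 : (0 : ℝ) < (d : ℝ) + 1 := by linarith
  obtain ⟨ℓ, hℓ⟩ : ∃ ℓ : ℝ, 4 * ((d : ℝ) + 1) * ℓ = R := ⟨R / (4 * ((d : ℝ) + 1)), by field_simp⟩
  have hℓM : 3 * w * M ≤ ℓ := by
    have h1 : 4 * ((d : ℝ) + 1) * (3 * w * M) ≤ 4 * ((d : ℝ) + 1) * ℓ := by
      rw [hℓ]
      calc 4 * ((d : ℝ) + 1) * (3 * w * M) = 12 * ((d : ℝ) + 1) * w * M := by ring
        _ ≤ R := hRM
    exact le_of_mul_le_mul_left h1 (by positivity)
  have hwM : w ≤ w * M := by nlinarith
  have hℓw : 3 * w ≤ ℓ := by nlinarith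
  have hℓ1 : 6 ≤ ℓ := by linarith
  have hR8 : 8 * ℓ ≤ R := by
    rw [← hℓ]
    nlinarith
  have hdl : ((d : ℝ) + 1) * ℓ = R / 4 := by linarith
  have hs0 : 3 * R / 4 ≤ s0 := by
    have : R - s0 = w := hwdef.symm
    linarith
  have hdd : (d : ℝ) * (ℓ + 1) ≤ s0 := by
    have h1 : (d : ℝ) ≤ ((d : ℝ) + 1) * ℓ / 6 := by nlinarith
    have h2 : (d : ℝ) * ℓ ≤ R / 4 := by nlinarith
    nlinarith
  have hRpos : 0 < R := by linarith
  have hsR : s0 ≤ R := by linarith
  have key : ∀ e k : ℕ, k + e = d + 1 → 1 ≤ k → ∀ t : Fin (d + 1) → ℝ,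
      (∀ j, ℓ ≤ t j ∧ t j ≤ ℓ + 1) → FB δ N (SR k (v5l s0) (v5u R t) (v5s k)) b := by
    intro e
    induction e with
    | zero =>
      intro k hk hk1 t ht
      have hk2 : k = d + 1 := by omega
      subst hk2
      have hset : SR (d + 1) (v5l s0) (v5u R t) (v5s (d + 1)) =
          bx (fun j : Fin (d + 1) => if (j : ℕ) = 0 then s0 else 0)
            (fun j => if (j : ℕ) = 0 then R else t j) := by
        ext a
        rw [v5_mem (d + 1) hk1 le_rfl]
        constructor
        · rintro ⟨h0, h1, h2, -⟩ j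
          by_cases hj : (j : ℕ) = 0
          · have : j = 0 := Fin.ext hj
            subst this
            simpa using h0
          · simp only
            rw [if_neg hj, if_neg hj]
            exact ⟨h1 j (by omega), h2 j (by omega) j.2⟩
        · intro ha
          have h0 : s0 < a 0 ∧ a 0 < R := by simpa using ha 0
          have h1 : ∀ j : Fin (d + 1), 1 ≤ (j : ℕ) → 0 < a j ∧ a j < t j := by
            intro j hj
            have h := ha j
            simp only at h
            rwa [if_neg (by omega), if_neg (by omega)] at h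
          refine ⟨h0, fun j hj => (h1 j hj).1, fun j hj _ => (h1 j hj).2, ?_⟩
          have h2 := v5_bsum_le a (fun _ => ℓ + 1) fun j hj => ((h1 j hj).2.le.trans (ht j).2)
          simp only [Finset.sum_const, Finset.card_univ, Fintype.card_fin, nsmul_eq_mul] at h2
          linarith [h0.1]
      rw [hset]
      refine hrows w _ _ (fun j => if (j : ℕ) = 0 then 1 else M) hw1 ?_ ?_ κ b ?_ hb
      · intro j hj
        simp only [hj, if_true]
        exact ⟨trivial, by linarith⟩
      · intro j hj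
        have hj0 : (j : ℕ) ≠ 0 := by omega
        simp only [hj0, if_false]
        exact ⟨hM, by linarith [(ht j).1]⟩
      · refine hcard.trans (le_of_eq ?_)
        rw [Fin.prod_univ_succ]
        simp
    | succ e ih =>
      intro k hk hk1 t ht
      have hkn : k < d + 1 := by omega
      have hbox := fun (p q : ℝ) (hp : 0 ≤ p) (hpq : p ≤ q) (hq : q ≤ 2 * ℓ) =>
        v5_box k hk1 hkn R s0 ℓ p q t (fun j => (ht j).1) hp hpq hq (by linarith)
          (by linarith) hsR
      have hfact : (1 : ℝ) ≤ ((d + 1).factorial : ℝ) := by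
        exact_mod_cast Nat.one_le_iff_ne_zero.2 (Nat.factorial_ne_zero _)
      refine FB.cut (by omega) hδ1 b Finset.univ
        (v5_fin k hk1 hkn.le R s0 hRpos.le (by linarith) t)
        (v5_open k hk1 hkn.le R s0 t).measurableSet ⟨k, hkn⟩ (x0 := ℓ) (x1 := ℓ + 1) (by linarith)
        ?_ ?_ ?_ ?_ ?_
      · have h1 := hbox ℓ (ℓ + 1) (by linarith) (by linarith) (by linarith)
          {a | ℓ < a ⟨k, hkn⟩ ∧ a ⟨k, hkn⟩ < ℓ + 1} (fun a h h' => ⟨h, h'⟩)
        have h2 : 1 ≤ ∏ i : Fin d, (if ((i : ℕ) + 1 = k) then ℓ + 1 - ℓ else ℓ) := by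
          refine v5_one_le_prod _ fun i => ?_
          split_ifs
          · linarith
          · linarith
        have h3 : 1 / (((d + 1).factorial : ℕ) : ℝ) ≤ 1 := by
          rw [div_le_one (by linarith)]
          exact hfact
        nlinarith
      · have h1 := hbox 0 ℓ le_rfl (by linarith) (by linarith)
          {a | a ⟨k, hkn⟩ < ℓ + 1} (fun a _ h' => by simp only [Set.mem_setOf_eq]; linarith)
        have h2 : (∏ i : Fin d, (if ((i : ℕ) + 1 = k) then ℓ - 0 else ℓ)) = ℓ ^ d := by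
          simp
        rw [h2] at h1
        refine lt_of_lt_of_le ?_ h1
        have h3 : ∑ p : κ, b p ^ (d + 1) / (((d + 1).factorial : ℕ) : ℝ) ≤
            ∑ p : κ, w ^ (d + 1) := by
          refine Finset.sum_le_sum fun p _ => ?_
          rw [div_le_iff₀ (by linarith)]
          have h4 : b p ^ (d + 1) ≤ w ^ (d + 1) := pow_le_pow_left₀ (hb p).1.le (hb p).2.le _
          have h5 : 0 ≤ w ^ (d + 1) := by positivity
          nlinarith
        refine lt_of_le_of_lt h3 ?_
        rw [Finset.sum_const, Finset.card_univ, nsmul_eq_mul]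
        have h4 : ((Fintype.card κ : ℕ) : ℝ) ≤ (M : ℝ) ^ d := by exact_mod_cast hcard
        have h5 : 0 ≤ w ^ (d + 1) := by positivity
        have h6 : (M : ℝ) ^ d * w ^ (d + 1) = w * (w * M) ^ d := by
          rw [mul_pow, pow_succ]
          ring
        have h7 : (w * M) ^ d < ℓ ^ d := by
          refine pow_lt_pow_left₀ ?_ (by positivity) (by omega)
          nlinarith
        calc (Fintype.card κ : ℝ) * w ^ (d + 1) ≤ (M : ℝ) ^ d * w ^ (d + 1) :=
              mul_le_mul_of_nonneg_right h4 h5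
          _ = w * (w * M) ^ d := h6
          _ < w * ℓ ^ d := by
              apply mul_lt_mul_of_pos_left h7
              linarith
      · have h1 := hbox (ℓ + 1) (2 * ℓ) (by linarith) (by linarith) le_rfl
          {a | ℓ + 1 < a ⟨k, hkn⟩} (fun a h _ => h)
        rw [Finset.compl_univ, Finset.sum_empty]
        refine lt_of_lt_of_le ?_ h1
        refine mul_pos (by linarith) (Finset.prod_pos fun i _ => ?_)
        split_ifs
        · linarith
        · linarith
      · intro x hx0 hx1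
        have hset : SR k (v5l s0) (v5u R t) (v5s k) ∩ {a | a ⟨k, hkn⟩ < x} =
            SR (k + 1) (v5l s0) (v5u R (Function.update t ⟨k, hkn⟩ x)) (v5s (k + 1)) := by
          ext a
          rw [Set.mem_inter_iff, v5_mem k hk1 hkn.le, v5_mem (k + 1) (by omega) (by omega),
            Set.mem_setOf_eq]
          constructor
          · rintro ⟨⟨h0, h1, h2, h3⟩, h4⟩
            refine ⟨h0, h1, ?_, h3⟩
            intro j hj hj2
            by_cases hjk : j = ⟨k, hkn⟩
            · rw [hjk, Function.update_self]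
              exact h4
            · rw [Function.update_of_ne hjk]
              refine h2 j hj ?_
              have : (j : ℕ) ≠ k := fun h => hjk (Fin.ext h)
              omega
          · rintro ⟨h0, h1, h2, h3⟩
            refine ⟨⟨h0, h1, ?_, h3⟩, ?_⟩
            · intro j hj hj2
              have h := h2 j hj (by omega)
              have hjk : j ≠ ⟨k, hkn⟩ := by
                intro h
                rw [h] at hj2
                simp at hj2
              rwa [Function.update_of_ne hjk] at h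
            · have h := h2 ⟨k, hkn⟩ hk1 (by simp)
              rwa [Function.update_self] at h
        rw [hset]
        have hih := ih (k + 1) (by omega) (by omega) (Function.update t ⟨k, hkn⟩ x) (by
          intro j
          by_cases hjk : j = ⟨k, hkn⟩
          · rw [hjk, Function.update_self]
            exact ⟨hx0, hx1⟩
          · rw [Function.update_of_ne hjk]
            exact ht j)
        exact FB.congr (Equiv.subtypeUnivEquiv (p := fun p => p ∈ (Finset.univ : Finset κ))
          (fun p => Finset.mem_univ p)).symm hih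
      · intro x hx0 hx1
        haveI : IsEmpty {p : κ // p ∉ (Finset.univ : Finset κ)} :=
          ⟨fun p => p.2 (Finset.mem_univ _)⟩
        refine FB.of_Fill ?_ _
        exact houter R s0 ℓ x k hkn t hk1 hw2 (by linarith) (by linarith) hℓ ht hx0 hx1
  have h1 := key d 1 (by omega) le_rfl (fun _ => ℓ) (fun _ => ⟨le_rfl, by linarith⟩)
  have hset : SR (n := d + 1) 1 (v5l s0) (v5u R fun _ => ℓ) (v5s 1) =
      SR (n := d + 1) 1 (fun _ _ => s0) (fun _ _ => R) (fun y => y 0) := by
    ext a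
    have hb1 : bsum 1 1 a = 0 := by
      simp only [bsum]
      refine Finset.sum_eq_zero fun i _ => ?_
      rw [if_neg (by omega)]
    have hw : ∀ j : Fin (d + 1), (j : ℕ) < 1 → v5l s0 j a = s0 ∧ v5u R (fun _ => ℓ) j a = R := by
      intro j hj
      have hj0 : (j : ℕ) = 0 := by omega
      simp [v5l, v5u, hj0]
    constructor
    · rintro ⟨h1, h2, h3⟩
      refine ⟨fun j hj => ?_, h2, ?_⟩
      · have h := h1 j hj
        rwa [(hw j hj).1, (hw j hj).2] at h
      · simp only [v5s, hb1, sub_zero] at h3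
        exact h3
    · rintro ⟨h1, h2, h3⟩
      refine ⟨fun j hj => ?_, h2, ?_⟩
      · rw [(hw j hj).1, (hw j hj).2]
        exact h1 j hj
      · simp only [v5s, hb1, sub_zero]
        exact h3
  rw [← hset]
  exact h1

end Vale.Agent.P209.Strong
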