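import Vale.Agent.P209.V.V5
import Vale.Agent.P209.Strong.H1b
import Vale.Agent.P209.Strong.H2a

set_option linter.all false

namespace Vale.Agent.P209.Strong

open MeasureTheory

/-! V6. One very large ball, few medium balls, and many small balls. -/

/-- The slab, in the coordinates of the large corner. -/
theorem v6_slab {m : ℕ} (R s0 : ℝ) :
    (fun a => h1b_G m a + 0) '' CR (m + 1) R (fun _ => 0) s0 =
      SR 1 (fun _ _ => s0) (fun _ _ => R) (fun y => y 0) := by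
  rw [h1b_image]
  ext y
  constructor
  · rintro ⟨h1, h2, h3, h4⟩
    exact ⟨h1, fun j hj => (h2 j hj).1, by linarith⟩
  · rintro ⟨h1, h2, h3⟩
    have hy0 : y 0 < R := (h1 0 (by simp)).2
    have hpos : ∀ i ∈ (Finset.univ : Finset (Fin m)), 0 ≤ y i.succ := fun i _ =>
      (h2 i.succ (by simp)).le
    have hb : bsum 1 (m + 1) y = ∑ j : Fin m, y j.succ := h1b_bsum m y
    have hbn : 0 ≤ bsum 1 (m + 1) y := by
      rw [hb]
      exact Finset.sum_nonneg hpos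
    have h3' : bsum 1 (m + 1) y < y 0 := h3
    refine ⟨h1, fun j hj => ⟨h2 j hj, ?_⟩, ?_, ?_⟩
    · obtain ⟨i, rfl⟩ : ∃ i : Fin m, j = i.succ :=
        ⟨j.pred (by intro h; rw [h] at hj; simp at hj), by simp⟩
      have h5 : y i.succ ≤ ∑ j : Fin m, y j.succ :=
        Finset.single_le_sum hpos (Finset.mem_univ i)
      show y i.succ < R - 0
      linarith
    · show 0 < y 0 - bsum 1 (m + 1) y
      linarith
    · show y 0 - bsum 1 (m + 1) y < R - 0
      linarith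

/-- The balls of the slab, in the simplex minus the large corner. -/
theorem v6_CR {m : ℕ} {δ N R s0 : ℝ} {κ : Type} [Fintype κ] {b : κ → ℝ} (hR : 0 < R)
    (hs0 : 0 ≤ s0) (hsR : s0 ≤ R)
    (h : FB δ N (SR (n := m + 1) 1 (fun _ _ => s0) (fun _ _ => R) (fun y => y 0)) b)
    (ι : Type) [Fintype ι] (r : ι → ℝ) (J : Finset ι) (h1 : ∀ i, 0 < r i ∧ r i ≤ 1)
    (h2 : ∀ i, i ∉ J → δ ≤ r i) (h3 : ∑ i ∈ J, r i ≤ N)
    (h4 : s0 ^ (m + 1) + ∑ p, b p ^ (m + 1) + ∑ i, r i ^ (m + 1) < R ^ (m + 1)) :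
    TPk (CR (m + 1) R (fun _ => 0) s0) (Sum.elim b r) := by
  have hv := CR_volume (m + 1) (by omega) R (fun _ => 0) s0 (fun _ => le_rfl) hs0
    (fun _ => hR.le) hsR hR
  have hz : ∑ _j : Fin (m + 1), (0 : ℝ) ^ (m + 1) = 0 := by
    apply Finset.sum_eq_zero
    intro j _
    exact zero_pow (Nat.succ_ne_zero m)
  rw [hz, zero_add] at hv
  rw [← v6_slab] at h
  have hfac : (0 : ℝ) < ((m + 1).factorial : ℝ) := by exact_mod_cast Nat.factorial_pos _
  have h5 := h ι r J h1 h2 h3 (by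
    rw [volume_image_of_integral _ (h1b_G m) (h1b_int m) (h1b_int' m) 0]
    refine lt_of_lt_of_le ?_ hv
    rw [← Finset.sum_div, ← Finset.sum_div, ← add_div]
    rw [div_lt_div_iff_of_pos_right hfac]
    linarith)
  have h6 := h5.image (h1b_G m).symm (h1b_int' m) (by simpa using h1b_int m)
    (-((h1b_G m).symm 0))
  have e : (fun a => (h1b_G m).symm a + -((h1b_G m).symm 0)) ''
      ((fun a => h1b_G m a + 0) '' CR (m + 1) R (fun _ => 0) s0) =
      CR (m + 1) R (fun _ => 0) s0 := by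
    rw [Set.image_image]
    have : (fun a => (h1b_G m).symm (h1b_G m a + 0) + -((h1b_G m).symm 0)) = id := by
      funext a
      simp
    rw [this, Set.image_id]
  rwa [e] at h6

/-- Room between the large ball and its corner. -/
theorem v6_tau {n : ℕ} {κ : Type} [Fintype κ] (b : κ → ℝ) {R b0 H S : ℝ} (hH : 0 < H)
    (hb : ∀ p, b p + b0 < R) (hv : b0 ^ n + S < R ^ n) :
    ∃ τ : ℝ, 0 < τ ∧ τ ≤ H ∧ (∀ p, b p < R - (b0 + τ)) ∧ (b0 + τ) ^ n + S < R ^ n := by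
  have hc : Filter.Tendsto (fun τ : ℝ => (b0 + τ) ^ n + S) (nhds 0) (nhds (b0 ^ n + S)) := by
    have : Continuous fun τ : ℝ => (b0 + τ) ^ n + S := by fun_prop
    have h := this.tendsto 0
    simpa using h
  have h1 : ∀ᶠ τ in nhds (0 : ℝ), (b0 + τ) ^ n + S < R ^ n :=
    hc.eventually (gt_mem_nhds hv)
  have h2 : ∀ᶠ τ in nhds (0 : ℝ), ∀ p, b p < R - (b0 + τ) := by
    rw [Filter.eventually_all]
    intro p
    have : Continuous fun τ : ℝ => R - (b0 + τ) := by fun_prop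
    have h := this.tendsto 0
    refine h.eventually (lt_mem_nhds ?_)
    have := hb p
    linarith
  have h3 : ∀ᶠ τ in nhds (0 : ℝ), τ < H := gt_mem_nhds hH
  have h4 := ((h1.and (h2.and h3)).filter_mono (nhdsWithin_le_nhds (s := Set.Ioi (0 : ℝ)))).and
    self_mem_nhdsWithin
  obtain ⟨τ, ⟨h5, h6, h7⟩, h8⟩ := h4.exists
  exact ⟨τ, h8, h7.le, h6, h5⟩

theorem thin_packs (d : ℕ) (hd : 1 ≤ d) (δ N : ℝ) (hδ : 0 < δ) (hδ1 : δ ≤ 1) (hN : 0 ≤ N) :
    ∃ H0 : ℝ, 0 < H0 ∧ ∀ (R b0 : ℝ) (M : ℕ) (κ : Type) [Fintype κ] (b : κ → ℝ), 0 < b0 →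
      (∀ p, 0 < b p) → (∀ p, b p + b0 < R) → H0 ≤ R - b0 → 1 ≤ M →
      12 * ((d : ℝ) + 1) * (R - b0) * M ≤ R → Fintype.card κ ≤ M ^ d →
      ∀ (ι : Type) [Fintype ι] (r : ι → ℝ) (J : Finset ι), (∀ i, 0 < r i ∧ r i ≤ 1) →
        (∀ i, i ∉ J → δ ≤ r i) → ∑ i ∈ J, r i ≤ N →
        b0 ^ (d + 1) + ∑ p, b p ^ (d + 1) + ∑ i, r i ^ (d + 1) < R ^ (d + 1) →
        TPk (simplex (d + 1) R) (Sum.elim (fun o : Option κ => o.elim b0 b) r) := by
  obtain ⟨H, hH, hslab⟩ := slab_FB d hd δ N hδ hδ1 hN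
  refine ⟨2 * H, by positivity, ?_⟩
  intro R b0 M κ _ b hb0 hb hbR hH0 hM hMR hcard ι _ r J h1 h2 h3 h4
  obtain ⟨τ, hτ, hτH, hτb, hτv⟩ := v6_tau (n := d + 1) b (S := ∑ p, b p ^ (d + 1) +
    ∑ i, r i ^ (d + 1)) hH hbR (by linarith)
  have hR : 0 < R := by linarith
  have hs : H ≤ R - (b0 + τ) := by linarith
  have hMR' : 12 * ((d : ℝ) + 1) * (R - (b0 + τ)) * M ≤ R := by
    refine le_trans ?_ hMR
    have hM0 : (0 : ℝ) ≤ M := Nat.cast_nonneg M
    have hd0 : (0 : ℝ) ≤ 12 * ((d : ℝ) + 1) := by positivity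
    exact mul_le_mul_of_nonneg_right (mul_le_mul_of_nonneg_left (by linarith) hd0) hM0
  have hFB := hslab R (b0 + τ) M hs hM hMR' κ b hcard fun p => ⟨hb p, hτb p⟩
  have hCR := v6_CR hR (by linarith) (by linarith) hFB ι r J h1 h2 h3 (by linarith)
  have hglue := TPk.glue (simplex (d + 1) R) (CR (d + 1) R (fun _ => 0) (b0 + τ))
    (fun _ : Unit => simplex (d + 1) (b0 + τ)) (fun _ => b0) (Sum.elim b r)
    (fun _ => corner_emb_zero hb0.le (by linarith)) hCR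
    (fun _ a ha => ⟨ha.1, ha.2.trans (by linarith)⟩)
    (fun a ha => ⟨fun j => (ha.1 j).1, ha.2.2⟩)
    (fun p q hpq => absurd (Subsingleton.elim p q) hpq)
    (fun _ => Set.disjoint_left.mpr fun a ha ha' => by
      have e1 := ha.2
      have e2 := ha'.2.1
      linarith)
  let e : Option κ ⊕ ι → Unit ⊕ (κ ⊕ ι) := Sum.elim
    (fun o : Option κ => o.elim (Sum.inl ()) (fun p => Sum.inr (Sum.inl p)))
    (fun i => Sum.inr (Sum.inr i))
  have he : Function.Injective e := by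
    rintro ((_ | p) | i) ((_ | q) | j) h
    all_goals simp [e] at h
    all_goals first | rfl | (subst h; rfl)
  have h9 := hglue.comp_inj e he
  have e9 : (fun k => (Sum.elim (fun _ : Unit => b0) (Sum.elim b r)) (e k)) =
      Sum.elim (fun o : Option κ => o.elim b0 b) r := by
    funext k
    rcases k with ((_ | p) | i) <;> rfl
  rwa [e9] at h9

end Vale.Agent.P209.Strong
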