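import Vale.Agent.P209.V.V6
import Vale.Agent.P209.Strong.H4

set_option linter.all false

namespace Vale.Agent.P209.Strong

open Vale.Agent.P209

/-! V7. One very large ball, few medium balls, and arbitrarily many small balls. -/

theorem thin_stability (d : ℕ) (hd : 1 ≤ d) : ∃ ε : ℝ, 0 < ε ∧
    ∀ (ι : Type) [Fintype ι] (R : ℝ) (r : ι → ℝ) (B : Finset ι) (i0 : ι) (M : ℕ),
      (∀ i, 0 < r i) → i0 ∉ B → r i0 < R → (∀ i ∈ B, r i + r i0 < R) → 1 ≤ M →
      B.card ≤ M ^ d → 12 * ((d : ℝ) + 1) * (R - r i0) * M ≤ R →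
      (∀ i, i ≠ i0 → i ∉ B → r i ≤ ε * (R - r i0)) →
      ∑ i, r i ^ (d + 1) < R ^ (d + 1) → Packs (openBall (d + 1) R) r := by
  classical
  obtain ⟨Nr, δ1, hδ1, hδ1', hM⟩ := merging (d + 1) (by omega)
  obtain ⟨H0, hH0, hC⟩ := thin_packs d hd δ1 (2 * Nr) hδ1 hδ1' (by positivity)
  refine ⟨1 / H0, by positivity, ?_⟩
  intro ι _ R r B i0 M hr hi0 hlt hpair hM1 hB hR12 hsmall hsum
  set s : ℝ := 1 / H0 * (R - r i0) with hs
  have hgap : 0 < R - r i0 := by linarith only [hlt]
  have hs0 : 0 < s := by positivity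
  have hR : 0 < R := lt_trans (hr i0) hlt
  have hHs : H0 * s = R - r i0 := by
    rw [hs]
    field_simp
  let κ : Type := Option {i // i ∈ B}
  let b : κ → ℝ := fun o => o.elim (r i0) (fun p => r p.1)
  have hb : ∀ p, 0 < b p := by
    rintro (_ | p)
    · exact hr i0
    · exact hr _
  have hbase : ∀ (ι : Type) [Fintype ι] (r : ι → ℝ) (J : Finset ι), (∀ i, 0 < r i ∧ r i ≤ s) →
      (∀ i, i ∉ J → δ1 * s ≤ r i) → ∑ i ∈ J, r i ≤ 2 * Nr * s →
      ∑ p, b p ^ (d + 1) + ∑ i, r i ^ (d + 1) < R ^ (d + 1) →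
      Packs (openBall (d + 1) R) (Sum.elim b r) := by
    intro ι' _ r' J h1 h2 h3 h4
    have hsn : 0 < s ^ (d + 1) := pow_pos hs0 _
    have hT := hC (R / s) (r i0 / s) M {i // i ∈ B} (fun p => r p.1 / s)
      (div_pos (hr _) hs0) (fun p => div_pos (hr _) hs0)
      (fun p => by
        rw [← add_div]
        exact div_lt_div_of_pos_right (hpair _ p.2) hs0)
      (by
        rw [← sub_div, le_div_iff₀ hs0]
        exact hHs.le)
      hM1
      (by
        rw [← sub_div, le_div_iff₀ hs0]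
        have e1 : 12 * ((d : ℝ) + 1) * ((R - r i0) / s) * M * s =
            12 * ((d : ℝ) + 1) * (R - r i0) * M := by
          field_simp
        rw [e1]
        exact hR12)
      (by
        rw [Fintype.card_coe]
        exact hB)
      ι' (fun i => r' i / s) J
      (fun i => ⟨div_pos (h1 i).1 hs0, (div_le_one hs0).2 (h1 i).2⟩)
      (fun i hi => by
        rw [le_div_iff₀ hs0]
        exact h2 i hi)
      (by
        rw [← Finset.sum_div, div_le_iff₀ hs0]
        exact h3)
      (by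
        rw [Fintype.sum_option] at h4
        have e1 : ∑ p : {i // i ∈ B}, (r p.1 / s) ^ (d + 1) =
            (∑ p : {i // i ∈ B}, r p.1 ^ (d + 1)) / s ^ (d + 1) := by
          rw [Finset.sum_div]
          exact Finset.sum_congr rfl fun q _ => by rw [div_pow]
        have e2 : ∑ i, (r' i / s) ^ (d + 1) = (∑ i, r' i ^ (d + 1)) / s ^ (d + 1) := by
          rw [Finset.sum_div]
          exact Finset.sum_congr rfl fun q _ => by rw [div_pow]
        rw [e1, e2, div_pow, div_pow, ← add_div, ← add_div]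
        exact div_lt_div_of_pos_right h4 hsn)
    have hK := Packs.scale hs0 (packs_of_TPk hT)
    have hRs : s * (R / s) = R := by field_simp
    rw [hRs] at hK
    have e3 : (fun k => s * Sum.elim (fun o : Option {i // i ∈ B} =>
        o.elim (r i0 / s) (fun p => r p.1 / s)) (fun i => r' i / s) k) =
        Sum.elim b r' := by
      funext k
      rcases k with (_ | q) | i
      · simp only [Sum.elim_inl, b, Option.elim_none]
        field_simp
      · simp only [Sum.elim_inl, b, Option.elim_some]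
        field_simp
      · simp only [Sum.elim_inr]
        field_simp
    rw [e3] at hK
    exact hK
  have hfin := hM R s κ b hR hs0 hb hbase {i // i ≠ i0 ∧ i ∉ B} (fun i => r i.1)
    (fun i => ⟨hr _, hsmall _ i.2.1 i.2.2⟩)
    (by
      have e0 : ∑ p : κ, b p ^ (d + 1) = r i0 ^ (d + 1) + ∑ i ∈ B, r i ^ (d + 1) := by
        rw [Fintype.sum_option]
        congr 1
        exact Finset.sum_coe_sort B (fun i => r i ^ (d + 1))
      have e2 : r i0 ^ (d + 1) + ∑ i ∈ B, r i ^ (d + 1) = ∑ i ∈ insert i0 B, r i ^ (d + 1) := by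
        rw [Finset.sum_insert hi0]
      have e3 : ∑ i : {i // i ≠ i0 ∧ i ∉ B}, r i.1 ^ (d + 1) =
          ∑ i ∈ (insert i0 B)ᶜ, r i ^ (d + 1) :=
        (Finset.sum_subtype (insert i0 B)ᶜ (fun i => by
          simp only [Finset.mem_compl, Finset.mem_insert, not_or, ne_eq])
          (fun i => r i ^ (d + 1))).symm
      rw [e0, e2, e3, Finset.sum_add_sum_compl]
      exact hsum)
  let g : ι → κ ⊕ {i // i ≠ i0 ∧ i ∉ B} := fun i =>
    if h0 : i = i0 then Sum.inl none
    else if h : i ∈ B then Sum.inl (some ⟨i, h⟩) else Sum.inr ⟨i, h0, h⟩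
  have hgc : ∀ i, (i = i0 ∧ g i = Sum.inl none) ∨
      (∃ h : i ∈ B, g i = Sum.inl (some ⟨i, h⟩)) ∨
      (∃ h : i ≠ i0 ∧ i ∉ B, g i = Sum.inr ⟨i, h⟩) := by
    intro i
    by_cases h0 : i = i0
    · exact Or.inl ⟨h0, by simp only [g, h0, dif_pos]⟩
    · by_cases h : i ∈ B
      · exact Or.inr (Or.inl ⟨h, by simp only [g, h0, h, dif_pos, dif_neg, not_false_eq_true]⟩)
      · exact Or.inr (Or.inr ⟨⟨h0, h⟩, by
          simp only [g, h0, h, dif_neg, not_false_eq_true]⟩)
  have hg : Function.Injective g := by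
    intro i j hij
    rcases hgc i with ⟨h1, h2⟩ | ⟨h1, h2⟩ | ⟨h1, h2⟩ <;>
    rcases hgc j with ⟨h3, h4⟩ | ⟨h3, h4⟩ | ⟨h3, h4⟩ <;> rw [h2, h4] at hij
    · rw [h1, h3]
    · simp at hij
    · simp at hij
    · simp at hij
    · exact congrArg Subtype.val (Option.some_injective _ (Sum.inl_injective hij))
    · simp at hij
    · simp at hij
    · simp at hij
    · exact congrArg Subtype.val (Sum.inr_injective hij)
  have hfin2 := Packs.comp_inj hfin g hg
  have e4 : (fun k => Sum.elim b (fun i : {i // i ≠ i0 ∧ i ∉ B} => r i.1) (g k)) = r := by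
    funext i
    rcases hgc i with ⟨h1, h2⟩ | ⟨h1, h2⟩ | ⟨h1, h2⟩
    · rw [h2, h1]; rfl
    · rw [h2]; rfl
    · rw [h2]; rfl
  rw [e4] at hfin2
  exact hfin2

end Vale.Agent.P209.Strong
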