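import Vale.Agent.P209.MM.U8
import Vale.Agent.P209.MM.U9

set_option linter.all false

namespace Vale.Agent.P209.MM

open Vale.Agent.P209 Vale.Agent.P209.Strong

/-! V8. The largest ball is not very large. -/

/-- One large ball and balls of small total volume, sorted version. -/
theorem v8_list (d k : ℕ) (R T : ℝ) (hT : 0 ≤ T) (hTR : T ≤ R) (s : ℕ → ℝ) (hs : Antitone s)
    (hs0 : ∀ i, 0 ≤ s i) (h0 : s 0 < R)
    (hrest : ∑ i ∈ Finset.Ico 1 k, s i ^ (d + 1) ≤ T ^ (d + 1))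
    (hv : s 0 ^ (d + 1) + T ^ (d + 1) < (R - T) ^ (d + 1)) :
    OPackIn d (fun i : Fin k => s i) (tri (d + 1) R) := by
  have hnn : ∀ i, 0 ≤ s i ^ (d + 1) := fun i => pow_nonneg (hs0 i) _
  refine mm_opack d 1 1 k le_rfl R s hs hs0 (by rw [u9_LL _ _ hs]; exact h0) ?_
  intro h1k
  rw [u9_LL _ _ hs]
  simp only [one_pow, Nat.sub_self, Nat.zero_add] at h1k ⊢
  have h1 : s 1 ^ (d + 1) ≤ ∑ i ∈ Finset.Ico 1 k, s i ^ (d + 1) :=
    Finset.single_le_sum (f := fun i => s i ^ (d + 1)) (fun i _ => hnn i)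
      (Finset.mem_Ico.2 ⟨le_rfl, h1k⟩)
  have h2 : s 1 ≤ T := le_of_pow_le_pow_left₀ (Nat.succ_ne_zero d) hT (h1.trans hrest)
  have h3 : ∑ i ∈ Finset.Ico 2 k, s i ^ (d + 1) ≤ ∑ i ∈ Finset.Ico 1 k, s i ^ (d + 1) :=
    Finset.sum_le_sum_of_subset_of_nonneg (Finset.Ico_subset_Ico_left (by norm_num))
      fun i _ _ => hnn i
  have h4 : (R - T) ^ (d + 1) ≤ (R - s 1) ^ (d + 1) :=
    pow_le_pow_left₀ (by linarith) (by linarith) _
  linarith

theorem v8_opack (d : ℕ) (κ : Type) [Fintype κ] (b : κ → ℝ) (R T : ℝ) (hT : 0 ≤ T)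
    (hTR : T ≤ R) (hb : ∀ i, 0 < b i) (i0 : κ) (hmax : ∀ i, b i ≤ b i0) (h0 : b i0 < R)
    (hrest : ∑ i, b i ^ (d + 1) ≤ b i0 ^ (d + 1) + T ^ (d + 1))
    (hv : b i0 ^ (d + 1) + T ^ (d + 1) < (R - T) ^ (d + 1)) :
    OPackIn d b (tri (d + 1) R) := by
  classical
  set k := Fintype.card κ with hk
  have hk0 : 0 < k := Fintype.card_pos_iff.2 ⟨i0⟩
  let e : Fin k ≃ κ := (Fintype.equivFin κ).symm
  let σ : Equiv.Perm (Fin k) := Tuple.sort fun i => - b (e i)
  have hmono : Monotone fun i => - b (e (σ i)) := Tuple.monotone_sort fun i => - b (e i)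
  let s : ℕ → ℝ := fun i => if h : i < k then b (e (σ ⟨i, h⟩)) else 0
  have hsf : ∀ i : Fin k, s i = b (e (σ i)) := fun i => dif_pos i.2
  have hs0 : ∀ i, 0 ≤ s i := by
    intro i
    by_cases h : i < k
    · rw [show s i = b (e (σ ⟨i, h⟩)) from dif_pos h]
      exact (hb _).le
    · rw [show s i = 0 from dif_neg h]
  have hs : Antitone s := by
    intro i j hij
    by_cases h : j < k
    · rw [show s j = b (e (σ ⟨j, h⟩)) from dif_pos h,
        show s i = b (e (σ ⟨i, lt_of_le_of_lt hij h⟩)) from dif_pos _]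
      have h1 := hmono (show (⟨i, lt_of_le_of_lt hij h⟩ : Fin k) ≤ ⟨j, h⟩ from hij)
      exact neg_le_neg_iff.1 h1
    · rw [show s j = 0 from dif_neg h]
      exact hs0 i
  have hs00 : s 0 = b i0 := by
    refine le_antisymm ?_ ?_
    · rw [show s 0 = b (e (σ ⟨0, hk0⟩)) from dif_pos hk0]
      exact hmax _
    · have h1 : s ((σ.symm (e.symm i0) : Fin k) : ℕ) = b i0 := by
        rw [hsf]
        simp
      rw [← h1]
      exact hs (Nat.zero_le _)
  have hsum : ∑ i ∈ Finset.range k, s i ^ (d + 1) = ∑ i, b i ^ (d + 1) := by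
    rw [Finset.sum_range]
    rw [← Equiv.sum_comp e fun x => b x ^ (d + 1), ← Equiv.sum_comp σ fun x => b (e x) ^ (d + 1)]
    exact Finset.sum_congr rfl fun i _ => by rw [hsf i]
  have hsplit : ∑ i ∈ Finset.range k, s i ^ (d + 1) =
      s 0 ^ (d + 1) + ∑ i ∈ Finset.Ico 1 k, s i ^ (d + 1) := by
    rw [Finset.range_eq_Ico, Finset.sum_eq_sum_Ico_succ_bot hk0]
  have h1 := v8_list d k R T hT hTR s hs hs0 (by rw [hs00]; exact h0)
    (by rw [hsum, hs00] at hsplit; linarith) (by rw [hs00]; exact hv)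
  have h2 := h1.comp (f := fun x : κ => σ.symm (e.symm x))
    (fun x y hxy => e.symm.injective (σ.symm.injective hxy))
  have h3 : (fun x : κ => s (σ.symm (e.symm x) : Fin k)) = b := by
    funext x
    rw [hsf]
    simp
  rw [h3] at h2
  exact h2

theorem thick_around (n : ℕ) (hn : 2 ≤ n) (η : ℝ) (hη : 0 < η) : ∃ ε : ℝ, 0 < ε ∧
    ∀ (k : ℕ) (R : ℝ) (r : Fin k → ℝ) (i0 : Fin k), 0 < R → (∀ i, 0 < r i) →
      (∀ i, r i ≤ r i0) → η * R ≤ R - r i0 → ∑ i, r i ^ n < R ^ n →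
      ∑ i with i ≠ i0 ∧ ε * R < r i, r i ^ n ≤ ε * R ^ n → Packs (openBall n R) r := by
  classical
  obtain ⟨d, rfl⟩ : ∃ d, n = d + 1 := ⟨n - 1, by omega⟩
  rcases le_or_gt 1 η with hη1 | hη1
  · refine ⟨1, one_pos, ?_⟩
    intro k R r i0 hR hr hmax hthick _ _
    exfalso
    have h1 := hr i0
    have h2 : 1 * R ≤ η * R := mul_le_mul_of_nonneg_right hη1 hR.le
    linarith
  have hgs0 : 0 < η / 4 := by positivity
  have hgs1 : η / 4 < 1 := by linarith
  obtain ⟨ε1, hε1, h⟩ := relative_free d (by omega) (η / 4) hgs0 hgs1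
  refine ⟨min ε1 ((η / 4) ^ (d + 1)), lt_min hε1 (by positivity), ?_⟩
  intro k R r i0 hR hr hmax hthick hsum hmed
  have hRn : 0 < R ^ (d + 1) := by positivity
  have hP0 : i0 = i0 ∨ ε1 * R < r i0 := Or.inl rfl
  have hsplit : ∑ i : {i // i = i0 ∨ ε1 * R < r i}, r i ^ (d + 1) +
      ∑ i : {i // ¬ (i = i0 ∨ ε1 * R < r i)}, r i ^ (d + 1) = ∑ i, r i ^ (d + 1) := by
    rw [← Equiv.sum_comp (Equiv.sumCompl fun i => i = i0 ∨ ε1 * R < r i) fun i => r i ^ (d + 1),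
      Fintype.sum_sum_type]
    rfl
  have hb : ∑ i : {i // i = i0 ∨ ε1 * R < r i}, r i ^ (d + 1) =
      ∑ i with (i = i0 ∨ ε1 * R < r i), r i ^ (d + 1) := by
    rw [Finset.sum_subtype (p := fun i => i = i0 ∨ ε1 * R < r i) _ (by simp)]
  have hfil : (Finset.univ.filter fun i => i = i0 ∨ ε1 * R < r i) =
      insert i0 (Finset.univ.filter fun i => i ≠ i0 ∧ ε1 * R < r i) := by
    ext i
    simp only [Finset.mem_filter, Finset.mem_univ, true_and, Finset.mem_insert]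
    tauto
  have hmono : ∑ i with (i ≠ i0 ∧ ε1 * R < r i), r i ^ (d + 1) ≤
      ∑ i with (i ≠ i0 ∧ min ε1 ((η / 4) ^ (d + 1)) * R < r i), r i ^ (d + 1) := by
    refine Finset.sum_le_sum_of_subset_of_nonneg ?_ fun i _ _ => pow_nonneg (hr i).le _
    intro i hi
    simp only [Finset.mem_filter, Finset.mem_univ, true_and] at hi ⊢
    exact ⟨hi.1, lt_of_le_of_lt (mul_le_mul_of_nonneg_right (min_le_left _ _) hR.le) hi.2⟩
  have hT : ∑ i with (i ≠ i0 ∧ ε1 * R < r i), r i ^ (d + 1) ≤ (η / 4 * R) ^ (d + 1) := by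
    refine hmono.trans (hmed.trans ?_)
    rw [mul_pow]
    exact mul_le_mul_of_nonneg_right (min_le_right _ _) hRn.le
  have hO : OPackIn d (fun i : {i // i = i0 ∨ ε1 * R < r i} => r i)
      (tri (d + 1) ((1 - η / 4) * R)) := by
    have hηR : 0 < η * R := mul_pos hη hR
    have hη4 : η / 4 * R = η * R / 4 := by ring
    have hη5 : (1 - η / 4) * R = R - η * R / 4 := by ring
    have hηR1 : η * R < R := by nlinarith
    refine v8_opack d _ _ _ (η / 4 * R) (by positivity) (by rw [hη4, hη5]; linarith)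
      (fun i => hr _) ⟨i0, hP0⟩ (fun i => hmax _) ?_ ?_ ?_
    · show r i0 < (1 - η / 4) * R
      rw [hη5]
      linarith
    · rw [hb, hfil, Finset.sum_insert (by simp)]
      show r i0 ^ (d + 1) + _ ≤ r i0 ^ (d + 1) + _
      linarith
    · show r i0 ^ (d + 1) + (η / 4 * R) ^ (d + 1) < ((1 - η / 4) * R - η / 4 * R) ^ (d + 1)
      have h1 : r i0 ^ (d + 1) + (η / 4 * R) ^ (d + 1) ≤ (r i0 + η / 4 * R) ^ (d + 1) :=
        pow_add_pow_le (hr i0).le (by positivity) (Nat.succ_ne_zero d)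
      refine lt_of_le_of_lt h1 (pow_lt_pow_left₀ ?_ ?_ (Nat.succ_ne_zero d))
      · rw [hη4, hη5]
        linarith
      · have := hr i0
        positivity
  have hP := h {i // i = i0 ∨ ε1 * R < r i} {i // ¬ (i = i0 ∨ ε1 * R < r i)} (fun i => r i)
    (fun i => r i) R hR
    (fun i => hr _) (fun i => ⟨hr _, not_lt.1 fun h => i.2 (Or.inr h)⟩) hO
    (by rw [hsplit]; exact hsum)
  have h2 := Vale.Agent.P209.Strong.Packs.comp_inj hP
    (Equiv.sumCompl fun i => i = i0 ∨ ε1 * R < r i).symm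
    (Equiv.sumCompl fun i => i = i0 ∨ ε1 * R < r i).symm.injective
  have h3 : (fun i : Fin k => Sum.elim (fun i : {i // i = i0 ∨ ε1 * R < r i} => r i)
      (fun i : {i // ¬ (i = i0 ∨ ε1 * R < r i)} => r i)
        ((Equiv.sumCompl fun i => i = i0 ∨ ε1 * R < r i).symm i)) = r := by
    have h4 : ∀ x, Sum.elim (fun i : {i // i = i0 ∨ ε1 * R < r i} => r i)
        (fun i : {i // ¬ (i = i0 ∨ ε1 * R < r i)} => r i) x =
          r ((Equiv.sumCompl fun i => i = i0 ∨ ε1 * R < r i) x) := by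
      rintro (x | x) <;> rfl
    funext i
    rw [h4, Equiv.apply_symm_apply]
  rw [h3] at h2
  exact h2

end Vale.Agent.P209.MM
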