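import Vale.Agent.P209.V.V7
import Vale.Agent.P209.V.V8

set_option linter.all false

namespace Vale.Agent.P209.MM

open Vale.Agent.P209 Vale.Agent.P209.Strong

/-! V9. One arbitrary ball, few medium balls, and arbitrarily many small balls. -/

theorem v9_pow_sub (d : ℕ) {a R : ℝ} (ha : 0 ≤ a) (haR : a ≤ R) :
    R ^ (d + 1) - a ^ (d + 1) ≤ ((d : ℝ) + 1) * (R - a) * R ^ d := by
  induction d with
  | zero => simp
  | succ d ih =>
    have h1 : a ^ (d + 1) ≤ R ^ (d + 1) := pow_le_pow_left₀ ha haR _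
    have hR : 0 ≤ R := ha.trans haR
    calc R ^ (d + 1 + 1) - a ^ (d + 1 + 1)
        = R * (R ^ (d + 1) - a ^ (d + 1)) + a ^ (d + 1) * (R - a) := by ring
      _ ≤ R * (((d : ℝ) + 1) * (R - a) * R ^ d) + R ^ (d + 1) * (R - a) :=
        add_le_add (mul_le_mul_of_nonneg_left ih hR)
          (mul_le_mul_of_nonneg_right h1 (sub_nonneg.2 haR))
      _ = _ := by push_cast; ring

theorem v9_floor {x : ℝ} (hx : 1 ≤ x) :
    1 ≤ ⌊x⌋₊ ∧ ((⌊x⌋₊ : ℕ) : ℝ) ≤ x ∧ x / 2 ≤ ((⌊x⌋₊ : ℕ) : ℝ) := by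
  have h1 : 1 ≤ ⌊x⌋₊ := Nat.le_floor (by exact_mod_cast hx)
  have h2 : ((⌊x⌋₊ : ℕ) : ℝ) ≤ x := Nat.floor_le (by linarith)
  have h3 : x < ((⌊x⌋₊ : ℕ) : ℝ) + 1 := Nat.lt_floor_add_one x
  have h4 : (1 : ℝ) ≤ ((⌊x⌋₊ : ℕ) : ℝ) := by exact_mod_cast h1
  exact ⟨h1, h2, by linarith⟩

/-- the counting estimate -/
theorem v9_card (d : ℕ) {e ε w R N : ℝ} (he : 0 < e) (hw : 0 < w) (hR : 0 < R)
    (hε : ε ≤ e ^ (d + 1) / (((d : ℝ) + 1) * (24 * ((d : ℝ) + 1)) ^ d))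
    (hN : N * (e * w) ^ (d + 1) ≤ ε * (((d : ℝ) + 1) * w * R ^ d)) :
    N ≤ (R / (24 * ((d : ℝ) + 1) * w)) ^ d := by
  have hd : (0 : ℝ) < (d : ℝ) + 1 := by positivity
  have h1 : ε * (((d : ℝ) + 1) * w * R ^ d) ≤
      e ^ (d + 1) / (((d : ℝ) + 1) * (24 * ((d : ℝ) + 1)) ^ d) * (((d : ℝ) + 1) * w * R ^ d) :=
    mul_le_mul_of_nonneg_right hε (by positivity)
  have h2 : e ^ (d + 1) / (((d : ℝ) + 1) * (24 * ((d : ℝ) + 1)) ^ d) * (((d : ℝ) + 1) * w * R ^ d) =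
      (R / (24 * ((d : ℝ) + 1) * w)) ^ d * (e * w) ^ (d + 1) := by
    rw [div_pow, mul_pow (24 * ((d : ℝ) + 1)) w d, mul_pow e w (d + 1), pow_succ w d]
    field_simp
  have h3 : 0 < (e * w) ^ (d + 1) := by positivity
  refine le_of_mul_le_mul_right ?_ h3
  calc N * (e * w) ^ (d + 1) ≤ _ := hN
    _ ≤ _ := h1
    _ = _ := h2

theorem packs_around (n : ℕ) (hn : 2 ≤ n) : ∃ ε : ℝ, 0 < ε ∧
    ∀ (k : ℕ) (R : ℝ) (r : Fin k → ℝ) (i0 : Fin k), 0 < R → (∀ i, 0 < r i) →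
      (∀ i, r i ≤ r i0) → (∀ i, i ≠ i0 → r i + r i0 < R) → ∑ i, r i ^ n < R ^ n →
      ∑ i with i ≠ i0 ∧ ε * (R - r i0) < r i, r i ^ n ≤ ε * (R ^ n - r i0 ^ n) →
      Packs (openBall n R) r := by
  classical
  obtain ⟨d, rfl⟩ : ∃ d, n = d + 1 := ⟨n - 1, by omega⟩
  have hd : 1 ≤ d := by omega
  obtain ⟨εT, hT0, hT⟩ := thin_stability d hd
  have hdpos : (0 : ℝ) < (d : ℝ) + 1 := by positivity
  have hη : (0 : ℝ) < 1 / (12 * ((d : ℝ) + 1)) := by positivity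
  obtain ⟨εB, hB0, hB⟩ := thick_around (d + 1) hn (1 / (12 * ((d : ℝ) + 1))) hη
  set ε : ℝ := min (min εT εB) (εT ^ (d + 1) / (((d : ℝ) + 1) * (24 * ((d : ℝ) + 1)) ^ d)) with hε
  have hε0 : 0 < ε := by
    refine lt_min (lt_min hT0 hB0) ?_
    positivity
  have hεT : ε ≤ εT := (min_le_left _ _).trans (min_le_left _ _)
  have hεB : ε ≤ εB := (min_le_left _ _).trans (min_le_right _ _)
  have hεc : ε ≤ εT ^ (d + 1) / (((d : ℝ) + 1) * (24 * ((d : ℝ) + 1)) ^ d) := min_le_right _ _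
  refine ⟨ε, hε0, ?_⟩
  intro k R r i0 hR hr hmax hpair hsum hmed
  have hi0 : r i0 < R := by
    have h1 : r i0 ^ (d + 1) ≤ ∑ i, r i ^ (d + 1) :=
      Finset.single_le_sum (f := fun i => r i ^ (d + 1)) (fun i _ => (pow_pos (hr i) _).le)
        (Finset.mem_univ i0)
    exact lt_of_pow_lt_pow_left₀ (d + 1) hR.le (h1.trans_lt hsum)
  set w : ℝ := R - r i0 with hw
  have hw0 : 0 < w := sub_pos.2 hi0
  have hwR : w ≤ R := by
    have := hr i0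
    rw [hw]
    linarith
  have hri0 : 0 ≤ r i0 ^ (d + 1) := (pow_pos (hr i0) _).le
  have hdiff : 0 ≤ R ^ (d + 1) - r i0 ^ (d + 1) :=
    sub_nonneg.2 (pow_le_pow_left₀ (hr i0).le hi0.le _)
  have hsub : ∀ c : ℝ, ε * w ≤ c →
      ∑ i with i ≠ i0 ∧ c < r i, r i ^ (d + 1) ≤ ε * (R ^ (d + 1) - r i0 ^ (d + 1)) := by
    intro c hc
    refine le_trans ?_ hmed
    refine Finset.sum_le_sum_of_subset_of_nonneg ?_ fun i _ _ => (pow_pos (hr i) _).le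
    intro i hi
    rw [Finset.mem_filter] at hi ⊢
    exact ⟨hi.1, hi.2.1, lt_of_le_of_lt hc hi.2.2⟩
  by_cases hcase : 1 / (12 * ((d : ℝ) + 1)) * R ≤ w
  · refine hB k R r i0 hR hr hmax hcase hsum ?_
    refine (hsub (εB * R) (mul_le_mul hεB hwR hw0.le hB0.le)).trans ?_
    refine mul_le_mul hεB ?_ hdiff hB0.le
    linarith
  · push Not at hcase
    set x : ℝ := R / (12 * ((d : ℝ) + 1) * w) with hx
    have h12 : 0 < 12 * ((d : ℝ) + 1) * w := by positivity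
    have hx1 : 1 ≤ x := by
      rw [hx, one_le_div h12]
      have h1 : 12 * ((d : ℝ) + 1) * w < 12 * ((d : ℝ) + 1) * (1 / (12 * ((d : ℝ) + 1)) * R) :=
        mul_lt_mul_of_pos_left hcase (by positivity)
      have h2 : 12 * ((d : ℝ) + 1) * (1 / (12 * ((d : ℝ) + 1)) * R) = R := by
        field_simp
      linarith
    obtain ⟨hM1, hM2, hM3⟩ := v9_floor hx1
    set B : Finset (Fin k) := Finset.univ.filter fun i => i ≠ i0 ∧ εT * w < r i with hBdef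
    refine hT (Fin k) R r B i0 ⌊x⌋₊ hr ?_ hi0 ?_ hM1 ?_ ?_ ?_ hsum
    · intro h
      exact (Finset.mem_filter.1 h).2.1 rfl
    · intro i hi
      exact hpair i (Finset.mem_filter.1 hi).2.1
    · have h1 : (B.card : ℝ) * (εT * w) ^ (d + 1) ≤ ∑ i ∈ B, r i ^ (d + 1) := by
        rw [← nsmul_eq_mul]
        refine Finset.card_nsmul_le_sum B _ _ fun i hi => ?_
        exact pow_le_pow_left₀ (by positivity) (Finset.mem_filter.1 hi).2.2.le _
      have h2 : ∑ i ∈ B, r i ^ (d + 1) ≤ ε * (R ^ (d + 1) - r i0 ^ (d + 1)) :=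
        hsub (εT * w) (mul_le_mul_of_nonneg_right hεT hw0.le)
      have h3 : ε * (R ^ (d + 1) - r i0 ^ (d + 1)) ≤ ε * (((d : ℝ) + 1) * w * R ^ d) :=
        mul_le_mul_of_nonneg_left (v9_pow_sub d (hr i0).le hi0.le) hε0.le
      have h4 := v9_card d hT0 hw0 hR hεc (h1.trans (h2.trans h3))
      have h5 : R / (24 * ((d : ℝ) + 1) * w) = x / 2 := by
        rw [hx]
        field_simp
        norm_num
      rw [h5] at h4
      have h6 : (x / 2) ^ d ≤ ((⌊x⌋₊ : ℕ) : ℝ) ^ d := pow_le_pow_left₀ (by linarith) hM3 _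
      exact_mod_cast h4.trans h6
    · have h1 : 12 * ((d : ℝ) + 1) * w * ((⌊x⌋₊ : ℕ) : ℝ) ≤ 12 * ((d : ℝ) + 1) * w * x :=
        mul_le_mul_of_nonneg_left hM2 h12.le
      have h2 : 12 * ((d : ℝ) + 1) * w * x = R := by
        rw [hx]
        field_simp
      exact h1.trans h2.le
    · intro i hne hi
      by_contra hlt
      push Not at hlt
      exact hi (Finset.mem_filter.2 ⟨Finset.mem_univ i, hne, hlt⟩)

end Vale.Agent.P209.MM
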