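import Mathlib

set_option linter.all false

namespace Vale.Agent.P209.MM

/-! W1. Grouping, and a numerical inequality. -/

theorem w1_tr {ι κ : Type} [Fintype ι] [DecidableEq ι] [Fintype κ] [DecidableEq κ] (f : ι → ℝ)
    (c : ℝ) (g : ι → κ)
    (h : ∀ q, (Finset.univ.filter fun i => g i = q).card = 1 ∨ ∑ i with g i = q, f i < c)
    {N : ℕ} (hN : Fintype.card κ = N) :
    ∃ g' : ι → Fin N, ∀ q, (Finset.univ.filter fun i => g' i = q).card = 1 ∨
      ∑ i with g' i = q, f i < c := by
  let e := Fintype.equivFinOfCardEq hN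
  refine ⟨fun i => e (g i), fun q => ?_⟩
  have h1 : (Finset.univ.filter fun i => e (g i) = q) =
      Finset.univ.filter fun i => g i = e.symm q := by
    ext i
    simp [Equiv.eq_symm_apply]
  rw [h1]
  exact h _

/-- Items of sizes `f i` in groups, such that every group is a single item or has total size less
than `c`; the number of groups is at most `2 * (∑ f) / c + 1`. -/
theorem group_fit {ι : Type} [Fintype ι] [DecidableEq ι] (f : ι → ℝ) (hf : ∀ i, 0 < f i) (c : ℝ)
    (hc : 0 < c) : ∃ (N : ℕ) (g : ι → Fin N),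
      (∀ q : Fin N, ((Finset.univ.filter fun i => g i = q).card = 1 ∨
        ∑ i with g i = q, f i < c)) ∧ N * c ≤ 2 * ∑ i, f i + c := by
  classical
  have hex : ∃ N : ℕ, ∃ g : ι → Fin N, ∀ q, (Finset.univ.filter fun i => g i = q).card = 1 ∨
      ∑ i with g i = q, f i < c := by
    refine ⟨Fintype.card ι, w1_tr f c id (fun q => Or.inl ?_) rfl⟩
    rw [Finset.card_eq_one]
    refine ⟨q, ?_⟩
    ext i
    simp
  obtain ⟨N, ⟨g, hg⟩, hmin⟩ : ∃ N : ℕ, (∃ g : ι → Fin N, ∀ q,
      (Finset.univ.filter fun i => g i = q).card = 1 ∨ ∑ i with g i = q, f i < c) ∧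
      ∀ m, m < N → ¬ ∃ g : ι → Fin m, ∀ q,
      (Finset.univ.filter fun i => g i = q).card = 1 ∨ ∑ i with g i = q, f i < c :=
    ⟨Nat.find hex, Nat.find_spec hex, fun m => Nat.find_min hex⟩
  refine ⟨N, g, hg, ?_⟩
  set T : Fin N → ℝ := fun q => ∑ i with g i = q, f i with hT
  have hT0 : ∀ q, 0 ≤ T q := fun q => Finset.sum_nonneg fun i _ => (hf i).le
  have hsum : ∑ q, T q = ∑ i, f i := Finset.sum_fiberwise _ _ _
  have hpair : ∀ q q', q ≠ q' → c ≤ T q + T q' := by
    intro q q' hne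
    by_contra hlt
    push Not at hlt
    have hcard : Fintype.card {x : Fin N // x ≠ q'} = N - 1 := by
      rw [Fintype.card_subtype_compl, Fintype.card_fin, Fintype.card_subtype_eq]
    have hNpos : 0 < N := Fin.pos q
    refine hmin (N - 1) (by omega) ?_
    refine w1_tr f c (κ := {x : Fin N // x ≠ q'})
      (fun i => if h : g i = q' then ⟨q, hne⟩ else ⟨g i, h⟩) (fun p => ?_) hcard
    by_cases hp : (p : Fin N) = q
    · right
      have h1 : (Finset.univ.filter fun i =>
          (if h : g i = q' then (⟨q, hne⟩ : {x : Fin N // x ≠ q'}) else ⟨g i, h⟩) = p) =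
          (Finset.univ.filter fun i => g i = q) ∪ Finset.univ.filter fun i => g i = q' := by
        ext i
        simp only [Finset.mem_filter, Finset.mem_univ, true_and, Finset.mem_union]
        by_cases h : g i = q'
        · simp only [h, dite_true, or_true, iff_true]
          exact Subtype.ext hp.symm
        · simp only [h, dite_false, or_false]
          rw [Subtype.ext_iff, hp]
      rw [h1, Finset.sum_union]
      · exact hlt
      · rw [Finset.disjoint_filter]
        intro i _ h2 h3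
        exact hne (h2.symm.trans h3)
    · have h1 : (Finset.univ.filter fun i =>
          (if h : g i = q' then (⟨q, hne⟩ : {x : Fin N // x ≠ q'}) else ⟨g i, h⟩) = p) =
          Finset.univ.filter fun i => g i = (p : Fin N) := by
        ext i
        simp only [Finset.mem_filter, Finset.mem_univ, true_and]
        by_cases h : g i = q'
        · simp only [h, dite_true]
          constructor
          · intro h2
            exact absurd (congrArg Subtype.val h2).symm hp
          · intro h2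
            exact absurd h2.symm p.2
        · simp only [h, dite_false]
          rw [Subtype.ext_iff]
      rw [h1]
      exact hg _
  rw [← hsum]
  rcases Nat.eq_zero_or_pos N with h0 | hpos
  · have h1 : (N : ℝ) = 0 := by rw [h0]; norm_num
    rw [h1, zero_mul]
    have h2 : 0 ≤ ∑ q, T q := Finset.sum_nonneg fun q _ => hT0 q
    linarith
  · haveI : Nonempty (Fin N) := ⟨⟨0, hpos⟩⟩
    obtain ⟨q0, hq0⟩ := Finite.exists_min T
    have h1 : ∀ q ∈ Finset.univ.erase q0, c / 2 ≤ T q := by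
      intro q hq
      have h2 := hpair q q0 (Finset.ne_of_mem_erase hq)
      have h3 := hq0 q
      linarith
    have h2 : ∑ q ∈ Finset.univ.erase q0, T q ≥ ((N : ℝ) - 1) * (c / 2) := by
      have h3 := Finset.card_nsmul_le_sum _ _ _ h1
      rw [Finset.card_erase_of_mem (Finset.mem_univ _), Finset.card_univ, Fintype.card_fin,
        nsmul_eq_mul, Nat.cast_sub hpos, Nat.cast_one] at h3
      exact h3
    have h3 := Finset.add_sum_erase Finset.univ T (Finset.mem_univ q0)
    have h4 := hT0 q0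
    rw [← h3]
    nlinarith

theorem w1_mono (n : ℕ) {s t h : ℝ} (hs : 0 ≤ s) (hst : s ≤ t) (hh : 0 ≤ h) :
    0 ≤ (s + h) ^ n - s ^ n ∧ (s + h) ^ n - s ^ n ≤ (t + h) ^ n - t ^ n := by
  induction n with
  | zero => simp
  | succ n ih =>
    obtain ⟨h1, h2⟩ := ih
    have e : ∀ u : ℝ, (u + h) ^ (n + 1) - u ^ (n + 1) =
        (u + h) * ((u + h) ^ n - u ^ n) + h * u ^ n := fun u => by ring
    rw [e, e]
    have h3 : 0 ≤ s ^ n := pow_nonneg hs n
    have h4 : s ^ n ≤ t ^ n := pow_le_pow_left₀ hs hst n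
    constructor
    · positivity
    · refine add_le_add ?_ (mul_le_mul_of_nonneg_left h4 hh)
      exact mul_le_mul (by linarith) h2 h1 (by linarith)

theorem around_ineq (n j : ℕ) (hn : 3 ≤ n) (hj : 1 ≤ j) (x : ℝ) (hx0 : 0 ≤ x)
    (hx : x ≤ (j : ℝ) + 1) :
    (2 / 3 : ℝ) ^ n * ((x + 1) ^ n - x ^ n) + 37 / 27 ≤ ((j : ℝ) + 1) ^ n - (j : ℝ) ^ n := by
  have hj' : (1 : ℝ) ≤ j := by exact_mod_cast hj
  have h1 := (w1_mono n hx0 hx (zero_le_one)).2
  have h2 : (2 / 3 : ℝ) ^ n * ((x + 1) ^ n - x ^ n) ≤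
      (2 / 3 : ℝ) ^ n * (((j : ℝ) + 1 + 1) ^ n - ((j : ℝ) + 1) ^ n) :=
    mul_le_mul_of_nonneg_left h1 (by positivity)
  have h3 : (2 / 3 : ℝ) ^ n * (((j : ℝ) + 1 + 1) ^ n - ((j : ℝ) + 1) ^ n) =
      (2 / 3 * ((j : ℝ) + 1) + 2 / 3) ^ n - (2 / 3 * ((j : ℝ) + 1)) ^ n := by
    rw [mul_sub, ← mul_pow, ← mul_pow]
    congr 2
    ring
  have h4 := (w1_mono n (s := 2 / 3 * ((j : ℝ) + 1)) (t := (j : ℝ) + 1 / 3) (h := 2 / 3)
    (by positivity) (by linarith) (by norm_num)).2
  have h5 : (j : ℝ) + 1 / 3 + 2 / 3 = j + 1 := by ring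
  rw [h5] at h4
  have h6 := (w1_mono n (s := 1) (t := (j : ℝ)) (h := 1 / 3) (by norm_num) hj' (by norm_num)).2
  have h7 : (1 + 1 / 3 : ℝ) ^ 3 ≤ (1 + 1 / 3 : ℝ) ^ n := pow_le_pow_right₀ (by norm_num) hn
  rw [one_pow] at h6
  norm_num at h7
  norm_num at h6
  norm_num at h4 ⊢
  rw [h3] at h2
  norm_num at h2
  linarith

end Vale.Agent.P209.MM
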