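import Vale.Agent.P209.MM.Q7
import Vale.Agent.P209.MM.Q8

set_option linter.all false

namespace Vale.Agent.P209.MM

open Vale.Agent.P209 Vale.Agent.P209.Strong

/-! X1. Ordered packings: substitution of a family in a cell with trivial permutation. -/

theorem x1_subst {n : ℕ} {α κ : Type} [Finite κ] {σ : α → Equiv.Perm (Fin (n + 1))}
    {b : α → Fin (n + 1) → ℝ} {key : α → ℕ} {a : α → ℝ} {Ω : Set (Fin (n + 1) → ℝ)}
    (h1 : ∀ i, cell (σ i) (b i) (a i) ⊆ Ω)
    (h2 : ∀ i j, i ≠ j → key i ≤ key j → ∀ y ∈ cell (σ i) (b i) (a i),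
      ∀ y' ∈ cell (σ j) (b j) (a j),
      (∀ k : Fin (n + 1), (k : ℕ) < n → y k = y' k) → y (Fin.last n) < y' (Fin.last n))
    (x0 : α) (hσ : σ x0 = 1) {c : κ → ℝ} (hc : OPackIn n c (tri (n + 1) (a x0))) :
    OPackIn n (Sum.elim c (fun x : {x : α // x ≠ x0} => a x)) Ω := by
  obtain ⟨τ, β, kc, p1, p2⟩ := hc
  obtain ⟨K, hK⟩ := (Set.finite_range kc).bddAbove
  have hK' : ∀ i, kc i ≤ K := fun i => hK ⟨i, rfl⟩
  have hmem : ∀ i (y : Fin (n + 1) → ℝ),
      y ∈ cell (τ i) (fun l => b x0 (τ i l) + β i l) (c i) →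
      (fun l => y l - b x0 l) ∈ cell (τ i) (β i) (c i) := by
    intro i y hy
    unfold cell at hy ⊢
    simp only [Set.mem_setOf_eq] at hy ⊢
    have e : (fun l => y (τ i l) - (b x0 (τ i l) + β i l)) =
        fun l => y (τ i l) - b x0 (τ i l) - β i l := by
      funext l; ring
    rw [e] at hy
    exact hy
  have hbig : ∀ i (y : Fin (n + 1) → ℝ),
      y ∈ cell (τ i) (fun l => b x0 (τ i l) + β i l) (c i) →
      y ∈ cell (σ x0) (b x0) (a x0) := by
    intro i y hy
    have h3 := p1 i (hmem i y hy)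
    rw [hσ]
    exact h3
  refine ⟨Sum.elim τ (fun x => σ x), Sum.elim (fun i l => b x0 (τ i l) + β i l) (fun x => b x),
    Sum.elim (fun i => key x0 * (K + 1) + kc i) (fun x => key x * (K + 1)), ?_, ?_⟩
  · rintro (i | x)
    · intro y hy
      exact h1 x0 (hbig i y hy)
    · exact h1 x
  · rintro (i | x) (j | x') hne hk y hy y' hy' hyy
    · have hne' : i ≠ j := fun h => hne (by rw [h])
      have hk' : kc i ≤ kc j := by
        simp only [Sum.elim_inl] at hk
        omega
      have h3 := p2 i j hne' hk' _ (hmem i y hy) _ (hmem j y' hy') (fun l hl => by rw [hyy l hl])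
      linarith
    · simp only [Sum.elim_inl, Sum.elim_inr] at hk
      have hk' : key x0 ≤ key x' := by
        have h4 : key x0 * (K + 1) ≤ key x' * (K + 1) := by omega
        exact Nat.le_of_mul_le_mul_right h4 (Nat.succ_pos K)
      exact h2 x0 x' (Ne.symm x'.2) hk' y (hbig i y hy) y' hy' hyy
    · simp only [Sum.elim_inl, Sum.elim_inr] at hk
      have hk' : key x ≤ key x0 := by
        by_contra hcon
        push Not at hcon
        have h4 : (key x0 + 1) * (K + 1) ≤ key x * (K + 1) := Nat.mul_le_mul_right _ hcon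
        have h5 := hK' j
        rw [Nat.add_mul, Nat.one_mul] at h4
        omega
      exact h2 x x0 x.2 hk' y hy y' (hbig j y' hy') hyy
    · have hne' : (x : α) ≠ x' := fun h => hne (by rw [Subtype.ext h])
      simp only [Sum.elim_inr] at hk
      have hk' : key x ≤ key x' := Nat.le_of_mul_le_mul_right hk (Nat.succ_pos K)
      exact h2 x x' hne' hk' y hy y' hy' hyy

/-- `layers_opack` with its permutations. -/
theorem x1_layers (d m j : ℕ) (hj : j ≤ m) (T : ℝ) (S : ℕ → ℝ) (hT : 0 < T)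
    (hS : ∀ q, j ≤ q → q < m → 0 < S q)
    (hanti : ∀ q q', j ≤ q → q ≤ q' → q' < m → S q' ≤ S q) (hjS : j < m → (j : ℝ) * S j ≤ T)
    {R : ℝ} (hsum : T + ∑ q ∈ Finset.Ico j m, S q ≤ R) :
    ∃ (b : Option {w : Fin (d + 1) → Fin m // ∃ i, j ≤ (w i : ℕ)} → Fin (d + 1) → ℝ)
      (key : Option {w : Fin (d + 1) → Fin m // ∃ i, j ≤ (w i : ℕ)} → ℕ),
      (∀ x, cell (x.elim 1 (fun w => rnk w.1)) (b x) (x.elim T (fun w => S (mx w.1))) ⊆
        tri (d + 1) R) ∧
      ∀ x x', x ≠ x' → key x ≤ key x' →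
        ∀ y ∈ cell (x.elim 1 (fun w => rnk w.1)) (b x) (x.elim T (fun w => S (mx w.1))),
        ∀ y' ∈ cell (x'.elim 1 (fun w => rnk w.1)) (b x') (x'.elim T (fun w => S (mx w.1))),
        (∀ k : Fin (d + 1), (k : ℕ) < d → y k = y' k) → y (Fin.last d) < y' (Fin.last d) := by
  obtain ⟨η, hη, hηT, hηS⟩ := q7_exists_eta m j T S hT hS
  have hSsum : 0 ≤ ∑ q ∈ Finset.Ico j m, S q := by
    refine Finset.sum_nonneg fun i hi => ?_
    rw [Finset.mem_Ico] at hi
    exact (hS i hi.1 hi.2).le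
  have hTR : T ≤ R := by linarith
  have hgap : ∀ q, j ≤ q → q < m → ∀ c c' : Fin m, c < c' →
      k10_off j T S q c + S q ≤ k10_off j T S q c' := by
    intro q h1 h2 c c' hcc
    exact k10_gap hη hηS hanti hjS h1 h2 (Fin.lt_def.1 hcc)
  have hmxj : ∀ w : {w : Fin (d + 1) → Fin m // ∃ i, j ≤ (w i : ℕ)}, j ≤ mx w.1 := by
    rintro ⟨w, i, hi⟩
    exact hi.trans (k10_le_mx w i)
  have hmxm : ∀ w : {w : Fin (d + 1) → Fin m // ∃ i, j ≤ (w i : ℕ)}, mx w.1 < m :=
    fun w => k10_mx_lt w.1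
  have hlo : ∀ (w : {w : Fin (d + 1) → Fin m // ∃ i, j ≤ (w i : ℕ)}) (y : Fin (d + 1) → ℝ),
      y ∈ wcell w.1 (fun c => k10_off j T S (mx w.1) c) (S (mx w.1)) →
        k10_off j T S (mx w.1) (mx w.1) < y (Fin.last d) ∧
          y (Fin.last d) < k10_off j T S (mx w.1) (mx w.1) + S (mx w.1) := by
    intro w y hy
    have h1 := wcell_mem' hy (Fin.last d)
    rw [← mx_eq] at h1
    exact h1
  refine ⟨fun x => x.elim 0 (fun w i => k10_off j T S (mx w.1) (w.1 i)),
    fun x => x.elim 0 (fun w => 1 + (mx w.1) * (d + 2) + (Tuple.sort w.1 (Fin.last d) : ℕ)),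
    ?_, ?_⟩
  · rintro (_ | w) y hy
    · exact tri_mono hTR ((k10_cell_one T y).1 hy)
    · have h1 : y ∈ wcell w.1 (fun c => k10_off j T S (mx w.1) c) (S (mx w.1)) := hy
      refine ⟨?_, wcell_strictMono (hgap _ (hmxj w) (hmxm w)) h1, ?_⟩
      · intro i
        have h2 := wcell_mem' h1 i
        exact lt_of_le_of_lt (k10_nonneg hη hηT hηS (hmxj w) (hmxm w)) h2.1
      · intro i
        have h3 := (hlo w _ h1).2
        have h4 : y i ≤ y (Fin.last d) :=
          (wcell_strictMono (hgap _ (hmxj w) (hmxm w)) h1).monotone (Fin.le_last i)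
        have h5 := k10_top (T := T) hη hηS (hmxj w) (hmxm w) le_rfl
        linarith
  · rintro (_ | w) (_ | w') hne hk y hy y' hy' hab
    · exact absurd rfl hne
    · have h0 : y' ∈ wcell w'.1 (fun c => k10_off j T S (mx w'.1) c) (S (mx w'.1)) := hy'
      have h1 := ((k10_cell_one T y).1 hy).2.2 (Fin.last d)
      have h2 := (hlo w' _ h0).1
      have h3 := k10_ge (T := T) (c := mx w'.1) hη hηS (hmxj w') (hmxm w') (hmxj w')
      linarith
    · simp only [Option.elim_some, Option.elim_none] at hk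
      omega
    · have h1 : y ∈ wcell w.1 (fun c => k10_off j T S (mx w.1) c) (S (mx w.1)) := hy
      have h2 : y' ∈ wcell w'.1 (fun c => k10_off j T S (mx w'.1) c) (S (mx w'.1)) := hy'
      simp only [Option.elim_some] at hk
      have hp : (Tuple.sort w.1 (Fin.last d) : ℕ) < d + 1 := Fin.is_lt _
      have hp' : (Tuple.sort w'.1 (Fin.last d) : ℕ) < d + 1 := Fin.is_lt _
      have hle : mx w.1 ≤ mx w'.1 := by
        by_contra hcon
        have h1 : (mx w'.1 + 1) * (d + 2) ≤ mx w.1 * (d + 2) :=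
          Nat.mul_le_mul_right _ (by omega)
        rw [Nat.add_mul, Nat.one_mul] at h1
        omega
      rcases hle.lt_or_eq with hlt | heq
      · have h3 := (hlo w _ h1).2
        have h4 := (hlo w' _ h2).1
        have h5 := k10_top (T := T) hη hηS (hmxj w) hlt (hmxm w').le
        rw [k10_off_eq T S (hmxj w') le_rfl] at h4
        linarith
      · rw [← heq] at h2
        refine wcell_order (hgap _ (hmxj w) (hmxm w)) h1 h2 hab heq ?_ ?_
        · rw [Fin.le_def]
          rw [heq] at hk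
          omega
        · intro hww
          exact hne (congrArg some (Subtype.ext hww))

/-- A family at the bottom and `2 ^ (d + 1) - 1` further balls. -/
theorem x1_bottom (d : ℕ) {κ : Type} [Finite κ] (c : κ → ℝ) {T S R : ℝ} (hS : 0 < S)
    (hST : S ≤ T) (hR : T + S ≤ R) (hc : OPackIn d c (tri (d + 1) T)) (x : ℕ → ℝ)
    (hx : ∀ i, x i ≤ S) :
    OPackIn d (Sum.elim c (fun i : Fin (2 ^ (d + 1) - 1) => x i)) (tri (d + 1) R) := by
  obtain ⟨e, he, -⟩ := words_enum (d + 1) 2 1 (by norm_num)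
  obtain ⟨b, key, h1, h2⟩ := x1_layers d 2 1 (by norm_num) T (fun _ => S) (by linarith)
    (fun _ _ _ => hS) (fun _ _ _ _ _ => le_rfl) (fun _ => by simpa using hST) (R := R)
    (by simpa using hR)
  have h3 := x1_subst h1 h2 none rfl (c := c) hc
  have hN : 2 ^ (d + 1) - 1 ≤ 2 ^ (d + 1) - 1 ^ (d + 1) := by rw [one_pow]
  have hf : Function.Injective (Sum.map id (fun i : Fin (2 ^ (d + 1) - 1) =>
      (⟨some (e (Fin.castLE hN i)), by simp⟩ :
        {x : Option {w : Fin (d + 1) → Fin 2 // ∃ i, 1 ≤ (w i : ℕ)} // x ≠ none})) :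
      κ ⊕ Fin (2 ^ (d + 1) - 1) → _) := by
    refine Sum.map_injective.2 ⟨Function.injective_id, ?_⟩
    intro i i' h
    have h4 := Option.some_injective _ (congrArg Subtype.val h)
    exact Fin.castLE_injective hN (he h4)
  refine (h3.comp hf).mono ?_ subset_rfl
  rintro (i | i)
  · exact le_rfl
  · exact hx _

/-- A family at the top and one ball at the bottom. -/
theorem x1_top (d : ℕ) {κ : Type} [Finite κ] (c : κ → ℝ) {T S R : ℝ} (hS : 0 < S)
    (hST : S ≤ T) (hR : T + S ≤ R) (hc : OPackIn d c (tri (d + 1) S)) (x : ℕ → ℝ)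
    (hx0 : x 0 ≤ T) (hx : ∀ i, 1 ≤ i → x i ≤ S) :
    OPackIn d (Sum.elim c (fun i : Fin (2 ^ (d + 1) - 1) => x i)) (tri (d + 1) R) := by
  classical
  obtain ⟨e, he, -⟩ := words_enum (d + 1) 2 1 (by norm_num)
  obtain ⟨b, key, h1, h2⟩ := x1_layers d 2 1 (by norm_num) T (fun _ => S) (by linarith)
    (fun _ _ _ => hS) (fun _ _ _ _ _ => le_rfl) (fun _ => by simpa using hST) (R := R)
    (by simpa using hR)
  obtain ⟨w1, hw1⟩ : ∃ w1 : {w : Fin (d + 1) → Fin 2 // ∃ i, 1 ≤ (w i : ℕ)},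
      w1 = ⟨fun _ => 1, ⟨0, le_rfl⟩⟩ := ⟨_, rfl⟩
  have hrnk : rnk w1.1 = 1 := by
    have h4 : Monotone w1.1 := by
      rw [hw1]
      exact monotone_const
    have h5 := Tuple.sort_eq_refl_iff_monotone.2 h4
    unfold rnk
    rw [h5]
    rfl
  have h3 := x1_subst h1 h2 (some w1) (by simpa using hrnk) (c := c) hc
  have hN : 2 ^ (d + 1) - 1 ≤ 2 ^ (d + 1) - 1 ^ (d + 1) := by rw [one_pow]
  have hN0 : 0 < 2 ^ (d + 1) - 1 ^ (d + 1) := by
    rw [one_pow]
    have : 2 ^ 1 ≤ 2 ^ (d + 1) := Nat.pow_le_pow_right (by norm_num) (by omega)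
    omega
  let g : Fin (2 ^ (d + 1) - 1) → Option {w : Fin (d + 1) → Fin 2 // ∃ i, 1 ≤ (w i : ℕ)} :=
    fun i => if (i : ℕ) = 0 then none else
      if e (Fin.castLE hN i) = w1 then some (e ⟨0, hN0⟩) else some (e (Fin.castLE hN i))
  have hne0 : ∀ i : Fin (2 ^ (d + 1) - 1), (i : ℕ) ≠ 0 →
      e (Fin.castLE hN i) ≠ e ⟨0, hN0⟩ := by
    intro i hi h
    have h4 := congrArg Fin.val (he h)
    exact hi h4
  have hgw : ∀ i, g i ≠ some w1 := by
    intro i
    by_cases hi : (i : ℕ) = 0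
    · simp [g, hi]
    · by_cases hi2 : e (Fin.castLE hN i) = w1
      · simp only [g, if_neg hi, if_pos hi2, ne_eq, Option.some.injEq]
        rw [← hi2]
        exact fun h => hne0 i hi h.symm
      · simp only [g, if_neg hi, if_neg hi2, ne_eq, Option.some.injEq]
        exact hi2
  have hginj : Function.Injective g := by
    intro i i' h
    by_cases hi : (i : ℕ) = 0 <;> by_cases hi' : (i' : ℕ) = 0
    · exact Fin.ext (hi.trans hi'.symm)
    · exfalso
      simp only [g, if_pos hi, if_neg hi'] at h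
      split_ifs at h
    · exfalso
      simp only [g, if_neg hi, if_pos hi'] at h
      split_ifs at h
    · simp only [g, if_neg hi, if_neg hi'] at h
      split_ifs at h with h4 h5 h5
      · exact Fin.castLE_injective hN (he (h4.trans h5.symm))
      · exact absurd (Option.some_injective _ h).symm (hne0 i' hi')
      · exact absurd (Option.some_injective _ h) (hne0 i hi)
      · exact Fin.castLE_injective hN (he (Option.some_injective _ h))
  have hf : Function.Injective (Sum.map id (fun i : Fin (2 ^ (d + 1) - 1) =>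
      (⟨g i, hgw i⟩ :
        {x : Option {w : Fin (d + 1) → Fin 2 // ∃ i, 1 ≤ (w i : ℕ)} // x ≠ some w1})) :
      κ ⊕ Fin (2 ^ (d + 1) - 1) → _) := by
    refine Sum.map_injective.2 ⟨Function.injective_id, ?_⟩
    intro i i' h
    exact hginj (congrArg Subtype.val h)
  refine (h3.comp hf).mono ?_ subset_rfl
  rintro (i | i)
  · exact le_rfl
  · simp only [Sum.elim_inr, Sum.map_inr]
    by_cases hi : (i : ℕ) = 0
    · simp only [g, hi, if_true, Option.elim_none]
      exact hx0
    · have h4 : x i ≤ S := hx _ (by omega)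
      simp only [g, if_neg hi]
      split_ifs
      · exact h4
      · exact h4

end Vale.Agent.P209.MM
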