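import Vale.Agent.P209.V.X1
import Vale.Agent.P209.MM.U8
import Vale.Agent.P209.MM.Q8b

set_option linter.all false

namespace Vale.Agent.P209.MM

open Vale.Agent.P209 Vale.Agent.P209.Strong

/-! X2. The chain criterion. -/

/-- One level of the chain. -/
theorem x2_step (d k : ℕ) (R : ℝ) (r : ℕ → ℝ) (hr : Antitone r) (hr0 : ∀ i, 0 ≤ r i)
    (h1 : 0 < r 1) (h01 : r 0 + r 1 ≤ R)
    (hc : OPackIn d (fun i : Fin (k - (2 ^ (d + 1) - 1)) => r (2 ^ (d + 1) - 1 + i))
      (tri (d + 1) (R - r 0))) :
    OPackIn d (fun i : Fin k => r i) (tri (d + 1) R) := by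
  obtain ⟨N, hN⟩ : ∃ N, 2 ^ (d + 1) - 1 = N := ⟨_, rfl⟩
  have h00 : 0 < r 0 := lt_of_lt_of_le h1 (hr (by norm_num))
  have key : OPackIn d (Sum.elim (fun i : Fin (k - (2 ^ (d + 1) - 1)) => r (2 ^ (d + 1) - 1 + i))
      (fun i : Fin (2 ^ (d + 1) - 1) => r i)) (tri (d + 1) R) := by
    rcases le_total (r 0) (R - r 0) with h | h
    · exact x1_bottom d _ h00 h (by linarith) hc r (fun i => hr (Nat.zero_le i))
    · exact x1_top d _ (S := R - r 0) (T := r 0) (by linarith) h (by linarith) hc r le_rfl
        (fun i hi => (hr hi).trans (by linarith))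
  rw [hN] at key
  let f : Fin k → Fin (k - N) ⊕ Fin N := fun i =>
    if h : (i : ℕ) < N then Sum.inr ⟨i, h⟩ else Sum.inl ⟨i - N, by omega⟩
  have hf : Function.Injective f := by
    intro a b hab
    by_cases ha : (a : ℕ) < N <;> by_cases hb : (b : ℕ) < N
    · simp only [f, ha, hb, dif_pos, Sum.inr.injEq, Fin.mk.injEq] at hab
      exact Fin.ext hab
    · simp [f, ha, hb] at hab
    · simp [f, ha, hb] at hab
    · simp only [f, ha, hb, dif_neg, not_false_eq_true, Sum.inl.injEq, Fin.mk.injEq] at hab
      exact Fin.ext (by omega)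
  refine (key.comp hf).mono (fun i => ?_) subset_rfl
  by_cases hi : (i : ℕ) < N
  · simp only [f, dif_pos hi, Sum.elim_inr]
    exact le_rfl
  · simp only [f, dif_neg hi, Sum.elim_inl]
    rw [Nat.add_sub_cancel' (not_lt.1 hi)]

/-- `p` levels of the chain, and a packing of the remaining balls. -/
theorem x2_chain (d : ℕ) : ∀ (p k : ℕ) (R : ℝ) (r : ℕ → ℝ), Antitone r → (∀ i, 0 ≤ r i) →
    (∀ i, i < k → 0 < r i) → (1 ≤ k → r 0 ≤ R) →
    (∀ q, q < p → q * (2 ^ (d + 1) - 1) + 1 < k →
      ∑ i ∈ Finset.range (q + 1), r (i * (2 ^ (d + 1) - 1)) +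
        r (q * (2 ^ (d + 1) - 1) + 1) ≤ R) →
    (p * (2 ^ (d + 1) - 1) < k →
      OPackIn d (fun i : Fin (k - p * (2 ^ (d + 1) - 1)) => r (p * (2 ^ (d + 1) - 1) + i))
        (tri (d + 1) (R - ∑ i ∈ Finset.range p, r (i * (2 ^ (d + 1) - 1))))) →
    OPackIn d (fun i : Fin k => r i) (tri (d + 1) R) := by
  intro p
  induction p with
  | zero =>
    intro k R r hr hr0 hpos h0 hq htail
    rcases Nat.eq_zero_or_pos k with rfl | hk
    · exact OPackIn.empty
    have h1 := htail (by simpa using hk)
    have hf : Function.Injective (fun i : Fin k =>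
        (⟨(i : ℕ), by simpa using i.2⟩ : Fin (k - 0 * (2 ^ (d + 1) - 1)))) := by
      intro a b hab
      exact Fin.ext (by simpa using hab)
    refine (h1.comp hf).mono (fun i => ?_) (tri_mono (by simp))
    simp
  | succ p ih =>
    intro k R r hr hr0 hpos h0 hq htail
    have h2N : 2 ^ 1 ≤ 2 ^ (d + 1) := Nat.pow_le_pow_right (by norm_num) (by omega)
    generalize hN : 2 ^ (d + 1) - 1 = N at *
    have hN1 : 1 ≤ N := by omega
    rcases Nat.lt_or_ge k 2 with hk | hk
    · rcases Nat.eq_zero_or_pos k with rfl | hk0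
      · exact OPackIn.empty
      · have hk1 : k = 1 := by omega
        subst hk1
        refine ⟨fun _ => 1, fun _ => 0, fun _ => 0, ?_, ?_⟩
        · intro i y hy
          have h3 : (i : ℕ) = 0 := by omega
          simp only [h3] at hy
          exact tri_mono (h0 le_rfl) ((k10_cell_one (r 0) y).1 hy)
        · intro i j hij
          exact absurd (Subsingleton.elim i j) hij
    · have h01 : r 0 + r 1 ≤ R := by
        have h3 := hq 0 (Nat.succ_pos p) (by omega)
        simpa using h3
      have h1 : 0 < r 1 := hpos 1 (by omega)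
      have key := ih (k - N) (R - r 0) (fun i => r (N + i))
        (fun a b hab => hr (Nat.add_le_add_left hab N)) (fun i => hr0 _)
        (fun i hi => hpos _ (by omega))
        (fun _ => by
          have h3 : r (N + 0) ≤ r 1 := hr (by omega)
          linarith)
        (by
          intro q hqp hqk
          have h3 := hq (q + 1) (by omega) (by
            rw [Nat.add_mul, Nat.one_mul]
            omega)
          rw [Finset.sum_range_succ'] at h3
          have e1 : ∑ i ∈ Finset.range (q + 1), r (N + i * N) =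
              ∑ i ∈ Finset.range (q + 1), r ((i + 1) * N) := by
            refine Finset.sum_congr rfl fun i _ => ?_
            congr 1
            ring
          have e2 : r (N + (q * N + 1)) = r ((q + 1) * N + 1) := by
            congr 1
            ring
          rw [e1, e2]
          simp only [Nat.zero_mul] at h3
          linarith)
        (by
          intro hpk
          have h3 := htail (by
            rw [Nat.add_mul, Nat.one_mul]
            omega)
          have hf : Function.Injective (fun i : Fin (k - N - p * N) =>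
              (⟨(i : ℕ), by
                have := i.2
                rw [Nat.add_mul, Nat.one_mul]
                omega⟩ : Fin (k - (p + 1) * N))) := by
            intro a b hab
            exact Fin.ext (by simpa using hab)
          refine (h3.comp hf).mono (fun i => ?_) (tri_mono ?_)
          · have e3 : N + (p * N + (i : ℕ)) = (p + 1) * N + i := by ring
            rw [e3]
          · rw [Finset.sum_range_succ']
            have e1 : ∑ i ∈ Finset.range p, r (N + i * N) =
                ∑ i ∈ Finset.range p, r ((i + 1) * N) := by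
              refine Finset.sum_congr rfl fun i _ => ?_
              congr 1
              ring
            rw [e1]
            simp only [Nat.zero_mul]
            linarith)
      subst hN
      exact x2_step d k R r hr hr0 h1 h01 key

/-- The chain criterion for all balls. -/
theorem x2_pure (d k : ℕ) (R : ℝ) (r : ℕ → ℝ) (hr : Antitone r) (hr0 : ∀ i, 0 ≤ r i)
    (hpos : ∀ i, i < k → 0 < r i) (h0 : 1 ≤ k → r 0 ≤ R)
    (hq : ∀ q, q * (2 ^ (d + 1) - 1) + 1 < k →
      ∑ i ∈ Finset.range (q + 1), r (i * (2 ^ (d + 1) - 1)) +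
        r (q * (2 ^ (d + 1) - 1) + 1) ≤ R) :
    OPackIn d (fun i : Fin k => r i) (tri (d + 1) R) := by
  refine x2_chain d k k R r hr hr0 hpos h0 (fun q _ h => hq q h) fun hk => ?_
  exfalso
  have h2N : 2 ^ 1 ≤ 2 ^ (d + 1) := Nat.pow_le_pow_right (by norm_num) (by omega)
  have h3 : k * 1 ≤ k * (2 ^ (d + 1) - 1) := Nat.mul_le_mul_left k (by omega)
  omega

/-- The chain criterion for symplectic balls. -/
theorem packs_chain (n k : ℕ) (hn : 1 ≤ n) (R : ℝ) (r : ℕ → ℝ) (hr : Antitone r)
    (hr0 : ∀ i, 0 ≤ r i) (hpos : ∀ i, i < k → 0 < r i) (h0 : r 0 < R)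
    (hq : ∀ q, q * (2 ^ n - 1) + 1 < k →
      ∑ i ∈ Finset.range (q + 1), r (i * (2 ^ n - 1)) + r (q * (2 ^ n - 1) + 1) < R) :
    Packs (openBall n R) (fun i : Fin k => r i) := by
  obtain ⟨d, rfl⟩ : ∃ d, n = d + 1 := ⟨n - 1, by omega⟩
  have h2N : 2 ^ 1 ≤ 2 ^ (d + 1) := Nat.pow_le_pow_right (by norm_num) (by omega)
  have e1 : ∀ᶠ x in nhdsWithin R (Set.Iio R), r 0 < x :=
    (eventually_gt_nhds h0).filter_mono nhdsWithin_le_nhds
  have e2 : ∀ᶠ x in nhdsWithin R (Set.Iio R), ∀ q ∈ Finset.range k,
      q * (2 ^ (d + 1) - 1) + 1 < k →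
      ∑ i ∈ Finset.range (q + 1), r (i * (2 ^ (d + 1) - 1)) +
        r (q * (2 ^ (d + 1) - 1) + 1) < x := by
    rw [Finset.eventually_all]
    intro q _
    by_cases hc : q * (2 ^ (d + 1) - 1) + 1 < k
    · exact ((eventually_gt_nhds (hq q hc)).filter_mono nhdsWithin_le_nhds).mono
        fun x hx _ => hx
    · exact Filter.Eventually.of_forall fun x hx => absurd hx hc
  have e3 : ∀ᶠ x in nhdsWithin R (Set.Iio R), x < R := self_mem_nhdsWithin
  obtain ⟨R', h1, h2, h3⟩ := (e1.and (e2.and e3)).exists
  have hR' : 0 < R' := lt_of_le_of_lt (hr0 0) h1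
  have hc1 : 1 < R / R' := by rw [one_lt_div hR']; exact h3
  have hc0 : 0 < R / R' := by linarith
  have hp := (x2_pure d k R' r hr hr0 hpos (fun _ => h1.le) (fun q hqk => by
    have h4 : q * 1 ≤ q * (2 ^ (d + 1) - 1) := Nat.mul_le_mul_left q (by omega)
    exact (h2 q (Finset.mem_range.2 (by omega)) hqk).le)).scale hc0
  have hRR : R / R' * R' = R := by field_simp
  rw [hRR] at hp
  refine bridge (by omega) hp.toTPack (fun i => hpos i i.2) fun i => ?_
  have h4 := hpos i i.2
  nlinarith

end Vale.Agent.P209.MM
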